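import Mathlib

/-! Definitions used in the statement about the affine maximal equation. -/

namespace Vale.Agent.P252

/-- The Hessian matrix of `f` at `x` in standard coordinates: entry `(i, j)` is the second
derivative of `f` at `x` applied to the coordinate vectors `eᵢ`, `eⱼ`. -/
noncomputable def hessian {n : ℕ} (f : EuclideanSpace ℝ (Fin n) → ℝ)
    (x : EuclideanSpace ℝ (Fin n)) : Matrix (Fin n) (Fin n) ℝ :=
  Matrix.of fun i j =>
    fderiv ℝ (fderiv ℝ f) x (EuclideanSpace.single i 1) (EuclideanSpace.single j 1)

end Vale.Agent.P252
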