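import Mathlib

/-! Linear algebra for Hessians of functions invariant under `O(m) × O(1,1)`. -/

namespace Vale.Agent.P252

open Matrix Finset

variable {m : ℕ}

/-- `1` on the first `m` coordinates, `0` on the last one. -/
def pv (m : ℕ) (i : Fin (m + 1)) : ℝ := if i = Fin.last m then 0 else 1

/-- The last coordinate vector. -/
def ev (m : ℕ) (i : Fin (m + 1)) : ℝ := if i = Fin.last m then 1 else 0

lemma pv_mul_self (i : Fin (m + 1)) : pv m i * pv m i = pv m i := by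
  unfold pv; split_ifs <;> ring

lemma ev_dot : ev m ⬝ᵥ ev m = 1 := by
  simp [dotProduct, ev]

lemma sum_pv : ∑ i, pv m i = (m : ℝ) := by
  rw [Fin.sum_univ_castSucc]
  simp [pv, Fin.castSucc_ne_last]

lemma pv_ev (i : Fin (m + 1)) : pv m i * ev m i = 0 := by
  unfold pv ev; split_ifs <;> ring

lemma one_eq : (1 : Matrix (Fin (m + 1)) (Fin (m + 1)) ℝ)
    = diagonal (pv m) + vecMulVec (ev m) (ev m) := by
  ext i j
  simp only [one_apply, diagonal_apply, Matrix.add_apply, vecMulVec_apply, pv, ev]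
  grind

lemma diag_mulVec_ev : diagonal (pv m) *ᵥ ev m = 0 := by
  funext i; simp [mulVec_diagonal, pv_ev]

section
variable (u ψ ψ₁ ψ₂ z : ℝ) (p : Fin (m + 1) → ℝ)

/-- `ψ₁ + 2ρψ₂`. -/
def lq : ℝ := ψ₁ + 2 * (p ⬝ᵥ p) * ψ₂

/-- The core matrix before the rank-one correction. -/
def Amat : Matrix (Fin (m + 1)) (Fin (m + 1)) ℝ :=
  ψ₁ • diagonal (pv m) + (2 * ψ₂) • vecMulVec p p + vecMulVec (ev m) (ev m)

/-- The inverse of `Amat`. -/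
noncomputable def Bmat : Matrix (Fin (m + 1)) (Fin (m + 1)) ℝ :=
  ψ₁⁻¹ • diagonal (pv m) + (-(2 * ψ₂) / (ψ₁ * lq ψ₁ ψ₂ p)) • vecMulVec p p
    + vecMulVec (ev m) (ev m)

/-- The vector `u ∇u`. -/
def wvec : Fin (m + 1) → ℝ := ψ₁ • p + z • ev m

/-- The vector `Amat⁻¹ wvec`. -/
noncomputable def vvec : Fin (m + 1) → ℝ := (ψ₁ / lq ψ₁ ψ₂ p) • p + z • ev m

/-- The scalar `(ψ lq - ρ ψ₁²)/lq`. -/
noncomputable def eq' : ℝ := (ψ * lq ψ₁ ψ₂ p - (p ⬝ᵥ p) * ψ₁ ^ 2) / lq ψ₁ ψ₂ p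

/-- The Hessian matrix. -/
noncomputable def Hmat : Matrix (Fin (m + 1)) (Fin (m + 1)) ℝ :=
  u⁻¹ • (Amat ψ₁ ψ₂ p + (-(u ^ 2)⁻¹) • vecMulVec (wvec ψ₁ z p) (wvec ψ₁ z p))

/-- The inverse Hessian matrix. -/
noncomputable def Mmat : Matrix (Fin (m + 1)) (Fin (m + 1)) ℝ :=
  u • (Bmat ψ₁ ψ₂ p
    + (eq' ψ ψ₁ ψ₂ p)⁻¹ • vecMulVec (vvec ψ₁ ψ₂ z p) (vvec ψ₁ ψ₂ z p))

end

variable {u ψ ψ₁ ψ₂ z : ℝ} {p : Fin (m + 1) → ℝ}

lemma p_dot_ev (hp : diagonal (pv m) *ᵥ p = p) : p ⬝ᵥ ev m = 0 := by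
  rw [dotProduct]
  refine Finset.sum_eq_zero fun i _ => ?_
  rw [← congrFun hp i, mulVec_diagonal, mul_right_comm, pv_ev, zero_mul]

lemma A_mul_B (hp : diagonal (pv m) *ᵥ p = p) (h1 : ψ₁ ≠ 0) (hL : lq ψ₁ ψ₂ p ≠ 0) :
    Amat ψ₁ ψ₂ p * Bmat ψ₁ ψ₂ p = 1 := by
  have hp' : p ᵥ* diagonal (pv m) = p := by
    funext i; rw [vecMul_diagonal, mul_comm, ← mulVec_diagonal, hp]
  have he' : ev m ᵥ* diagonal (pv m) = 0 := by
    funext i; rw [vecMul_diagonal, mul_comm, pv_ev]; rfl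
  have e1 : diagonal (pv m) * diagonal (pv m) = diagonal (pv m) := by
    simp [diagonal_mul_diagonal, pv_mul_self]
  have hpe := p_dot_ev hp
  have hep : ev m ⬝ᵥ p = 0 := by rw [dotProduct_comm, hpe]
  set L := lq ψ₁ ψ₂ p with hLdef
  simp only [Amat, Bmat, add_mul, mul_add, smul_mul_assoc, mul_smul_comm, e1, mul_vecMulVec,
    vecMulVec_mul, vecMulVec_mulVec, op_smul_eq_smul, smul_vecMulVec,
    hp, hp', he', diag_mulVec_ev, hpe, hep, ev_dot,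
    zero_smul, one_smul, vecMulVec_zero, zero_vecMulVec, smul_zero, add_zero, zero_add]
  simp only [← hLdef]
  rw [one_eq]
  match_scalars <;> simp only [lq] at hLdef <;> field_simp
  rw [hLdef]; ring

lemma A_mulVec (hp : diagonal (pv m) *ᵥ p = p) (hL : lq ψ₁ ψ₂ p ≠ 0) :
    Amat ψ₁ ψ₂ p *ᵥ vvec ψ₁ ψ₂ z p = wvec ψ₁ z p := by
  have hpe := p_dot_ev hp
  have hep : ev m ⬝ᵥ p = 0 := by rw [dotProduct_comm, hpe]
  simp only [Amat, vvec, wvec, add_mulVec, mulVec_add, smul_mulVec, mulVec_smul,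
    vecMulVec_mulVec, hp, diag_mulVec_ev, op_smul_eq_smul, hpe, hep, ev_dot, zero_smul,
    smul_zero, add_zero, zero_add, one_smul]
  match_scalars
  · simp only [lq] at hL ⊢
    field_simp
  · ring

lemma Amat_transpose : (Amat ψ₁ ψ₂ p)ᵀ = Amat ψ₁ ψ₂ p := by
  simp [Amat, transpose_vecMulVec]

lemma Bmat_transpose : (Bmat ψ₁ ψ₂ p)ᵀ = Bmat ψ₁ ψ₂ p := by
  simp [Bmat, transpose_vecMulVec]

lemma B_mulVec_w (hp : diagonal (pv m) *ᵥ p = p) (h1 : ψ₁ ≠ 0) (hL : lq ψ₁ ψ₂ p ≠ 0) :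
    Bmat ψ₁ ψ₂ p *ᵥ wvec ψ₁ z p = vvec ψ₁ ψ₂ z p := by
  rw [← A_mulVec hp hL, mulVec_mulVec, mul_eq_one_comm.1 (A_mul_B hp h1 hL), one_mulVec]

lemma w_dot_v (hp : diagonal (pv m) *ᵥ p = p) :
    wvec ψ₁ z p ⬝ᵥ vvec ψ₁ ψ₂ z p = z ^ 2 + ψ₁ ^ 2 * (p ⬝ᵥ p) / lq ψ₁ ψ₂ p := by
  have hpe := p_dot_ev hp
  have hep : ev m ⬝ᵥ p = 0 := by rw [dotProduct_comm, hpe]
  simp only [wvec, vvec, add_dotProduct, dotProduct_add, smul_dotProduct, dotProduct_smul, hpe,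
    hep, ev_dot, smul_eq_mul]
  ring

lemma q_add (hu2 : u ^ 2 = z ^ 2 + ψ) (hL : lq ψ₁ ψ₂ p ≠ 0) (hp : diagonal (pv m) *ᵥ p = p) :
    wvec ψ₁ z p ⬝ᵥ vvec ψ₁ ψ₂ z p = u ^ 2 - eq' ψ ψ₁ ψ₂ p := by
  rw [w_dot_v hp, eq', hu2]; field_simp; ring

lemma H_mul_M (hp : diagonal (pv m) *ᵥ p = p) (hu : u ≠ 0) (hu2 : u ^ 2 = z ^ 2 + ψ)
    (h1 : ψ₁ ≠ 0) (hL : lq ψ₁ ψ₂ p ≠ 0) (hE : eq' ψ ψ₁ ψ₂ p ≠ 0) :
    Hmat u ψ₁ ψ₂ z p * Mmat u ψ ψ₁ ψ₂ z p = 1 := by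
  have hwB : wvec ψ₁ z p ᵥ* Bmat ψ₁ ψ₂ p = vvec ψ₁ ψ₂ z p := by
    rw [← mulVec_transpose, Bmat_transpose, B_mulVec_w hp h1 hL]
  have hq := q_add hu2 hL hp
  simp only [Hmat, Mmat, smul_mul_assoc, mul_smul_comm, add_mul, mul_add, A_mul_B hp h1 hL,
    mul_vecMulVec, vecMulVec_mul, vecMulVec_mulVec, op_smul_eq_smul, smul_vecMulVec,
    A_mulVec hp hL, hwB, hq, smul_smul]
  match_scalars
  · field_simp
  · field_simp
    ring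

lemma det_Amat (hp : diagonal (pv m) *ᵥ p = p) (hm : 1 ≤ m) (h1 : ψ₁ ≠ 0) :
    (Amat ψ₁ ψ₂ p).det = ψ₁ ^ (m - 1) * lq ψ₁ ψ₂ p := by
  set d : Fin (m + 1) → ℝ := ψ₁ • pv m + ev m with hd
  have e : Amat ψ₁ ψ₂ p
      = diagonal d * (1 + vecMulVec ((2 * ψ₂ / ψ₁) • p) p) := by
    have hd' : diagonal d = ψ₁ • diagonal (pv m) + vecMulVec (ev m) (ev m) := by
      ext i j
      simp only [hd, diagonal_apply, Matrix.add_apply, Matrix.smul_apply, vecMulVec_apply, Pi.add_apply,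
        Pi.smul_apply, pv, ev, smul_eq_mul]
      grind
    have hpe := p_dot_ev hp
    have hep : ev m ⬝ᵥ p = 0 := by rw [dotProduct_comm, hpe]
    rw [hd', mul_add, mul_one, mul_vecMulVec]
    simp only [Amat, mulVec_smul, add_mulVec, smul_mulVec, hp, vecMulVec_mulVec, hep,
      op_smul_eq_smul, zero_smul, add_zero, smul_smul, smul_vecMulVec]
    match_scalars <;> field_simp
  have hdet : (diagonal d).det = ψ₁ ^ m := by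
    rw [det_diagonal, Fin.prod_univ_castSucc]
    simp [hd, pv, ev, Fin.castSucc_ne_last]
  rw [e, det_mul, hdet, vecMulVec_eq Unit, det_one_add_replicateCol_mul_replicateRow,
    dotProduct_smul, smul_eq_mul, lq]
  obtain ⟨k, rfl⟩ : ∃ k, m = k + 1 := ⟨m - 1, by omega⟩
  rw [Nat.add_sub_cancel, pow_succ]
  field_simp

lemma det_Hmat (hp : diagonal (pv m) *ᵥ p = p) (hm : 1 ≤ m) (hu : u ≠ 0)
    (hu2 : u ^ 2 = z ^ 2 + ψ) (h1 : ψ₁ ≠ 0) (hL : lq ψ₁ ψ₂ p ≠ 0) :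
    (Hmat u ψ₁ ψ₂ z p).det
      = ψ₁ ^ (m - 1) * (ψ * lq ψ₁ ψ₂ p - (p ⬝ᵥ p) * ψ₁ ^ 2) / u ^ (m + 3) := by
  have e : Amat ψ₁ ψ₂ p + (-(u ^ 2)⁻¹) • vecMulVec (wvec ψ₁ z p) (wvec ψ₁ z p)
      = Amat ψ₁ ψ₂ p * (1 + vecMulVec ((-(u ^ 2)⁻¹) • vvec ψ₁ ψ₂ z p) (wvec ψ₁ z p)) := by
    rw [mul_add, mul_one, mul_vecMulVec, mulVec_smul, A_mulVec hp hL, smul_vecMulVec]
  rw [Hmat, det_smul, e, det_mul, det_Amat hp hm h1, vecMulVec_eq Unit,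
    det_one_add_replicateCol_mul_replicateRow, dotProduct_smul, q_add hu2 hL hp, smul_eq_mul,
    Fintype.card_fin, eq', inv_pow]
  field_simp
  ring

lemma posDef_Hmat (hp : diagonal (pv m) *ᵥ p = p) (hu : 0 < u) (hu2 : u ^ 2 = z ^ 2 + ψ)
    (hψ : 0 < ψ) (h1 : 0 < ψ₁) (hN : 0 < ψ * lq ψ₁ ψ₂ p - (p ⬝ᵥ p) * ψ₁ ^ 2) :
    (Hmat u ψ₁ ψ₂ z p).PosDef := by
  apply Matrix.PosDef.of_dotProduct_mulVec_pos
  · rw [IsHermitian, conjTranspose_eq_transpose_of_trivial]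
    simp [Hmat, Amat_transpose, transpose_vecMulVec]
  intro x hx
  have hpe := p_dot_ev hp
  set S := ∑ i, pv m i * (x i * x i) with hS
  set a := p ⬝ᵥ x with ha
  set c := ev m ⬝ᵥ x with hc
  have hval : star x ⬝ᵥ (Hmat u ψ₁ ψ₂ z p *ᵥ x)
      = u⁻¹ * (ψ₁ * S + 2 * ψ₂ * a ^ 2 + c ^ 2 - (ψ₁ * a + z * c) ^ 2 / u ^ 2) := by
    have e1 : x ⬝ᵥ (diagonal (pv m) *ᵥ x) = S := by
      simp only [dotProduct, mulVec_diagonal, hS]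
      exact Finset.sum_congr rfl fun i _ => by ring
    simp only [star_trivial, Hmat, Amat, smul_mulVec, add_mulVec, vecMulVec_mulVec,
      op_smul_eq_smul, dotProduct_smul, dotProduct_add, smul_eq_mul, e1, wvec, add_dotProduct,
      smul_dotProduct, ← ha, ← hc, dotProduct_comm x p, dotProduct_comm x (ev m)]
    ring
  rw [hval]
  refine mul_pos (inv_pos.2 hu) ?_
  have hCS : a ^ 2 ≤ (p ⬝ᵥ p) * S := by
    have h := Finset.sum_mul_sq_le_sq_mul_sq univ p (fun i => pv m i * x i)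
    have hL' : ∑ i, p i * (pv m i * x i) = a := by
      refine Finset.sum_congr rfl fun i _ => ?_
      rw [← congrFun hp i, mulVec_diagonal]
      linear_combination (p i * x i) * pv_mul_self i
    rw [hL'] at h
    rw [show (p ⬝ᵥ p) * S = (∑ i, p i ^ 2) * ∑ i, (pv m i * x i) ^ 2 by
      congr 1
      · simp [dotProduct, sq]
      · rw [hS]
        refine Finset.sum_congr rfl fun i _ => ?_
        linear_combination -(x i * x i) * pv_mul_self i]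
    exact h
  have hS0 : 0 ≤ S := Finset.sum_nonneg fun i _ =>
    mul_nonneg (by unfold pv; split_ifs <;> norm_num) (mul_self_nonneg _)
  have hd : 0 < S ∨ c ≠ 0 := by
    by_contra h
    push Not at h
    apply hx
    funext i
    by_cases hi : i = Fin.last m
    · have : c = x i := by
        rw [hc, hi]; simp [dotProduct, ev]
      rw [← this]; exact h.2
    · have h0 := (Finset.sum_eq_zero_iff_of_nonneg (fun j _ => mul_nonneg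
        (by unfold pv; split_ifs <;> norm_num) (mul_self_nonneg _))).1 (le_antisymm h.1 hS0) i
        (mem_univ _)
      simpa [pv, hi] using h0
  have key : u ^ 2 * (ψ₁ * S + 2 * ψ₂ * a ^ 2 + c ^ 2) - (ψ₁ * a + z * c) ^ 2
      = (ψ * c - z * ψ₁ * a) ^ 2 / ψ
        + u ^ 2 / ψ * (ψ * ψ₁ * S + (2 * ψ₂ * ψ - ψ₁ ^ 2) * a ^ 2) := by
    rw [hu2]; field_simp; ring
  have hbr : S * (ψ * lq ψ₁ ψ₂ p - (p ⬝ᵥ p) * ψ₁ ^ 2)
      ≤ ψ * ψ₁ * S + (2 * ψ₂ * ψ - ψ₁ ^ 2) * a ^ 2 ∨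
      ψ * ψ₁ * S ≤ ψ * ψ₁ * S + (2 * ψ₂ * ψ - ψ₁ ^ 2) * a ^ 2 := by
    rcases le_total (2 * ψ₂ * ψ - ψ₁ ^ 2) 0 with h | h
    · left
      have := mul_le_mul_of_nonpos_left hCS h
      unfold lq; linarith
    · right
      have := mul_nonneg h (sq_nonneg a)
      linarith
  suffices 0 < u ^ 2 * (ψ₁ * S + 2 * ψ₂ * a ^ 2 + c ^ 2) - (ψ₁ * a + z * c) ^ 2 by
    rw [sub_pos, div_lt_iff₀ (by positivity)]
    linarith
  rw [key]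
  rcases hS0.eq_or_lt with h0 | hpos
  · have ha0 : a = 0 := by
      rw [← h0, mul_zero] at hCS
      nlinarith [sq_nonneg a]
    rw [ha0, ← h0]
    simp only [mul_zero, sub_zero, ne_eq, OfNat.ofNat_ne_zero, not_false_eq_true, zero_pow,
      add_zero]
    have hc0 : c ≠ 0 := hd.resolve_left (by rw [← h0]; exact lt_irrefl _)
    positivity
  · have : 0 < ψ * ψ₁ * S + (2 * ψ₂ * ψ - ψ₁ ^ 2) * a ^ 2 := by
      rcases hbr with h | h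
      · exact lt_of_lt_of_le (mul_pos hpos hN) h
      · exact lt_of_lt_of_le (by positivity) h
    positivity

/-- Contraction of two matrices. -/
def pairing (M W : Matrix (Fin (m + 1)) (Fin (m + 1)) ℝ) : ℝ := ∑ i, ∑ j, M i j * W i j

lemma pairing_add (M W W' : Matrix (Fin (m + 1)) (Fin (m + 1)) ℝ) :
    pairing M (W + W') = pairing M W + pairing M W' := by
  simp [pairing, mul_add, Finset.sum_add_distrib]

lemma pairing_smul (M W : Matrix (Fin (m + 1)) (Fin (m + 1)) ℝ) (r : ℝ) :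
    pairing M (r • W) = r * pairing M W := by
  simp only [pairing, Matrix.smul_apply, smul_eq_mul, Finset.mul_sum]
  exact Finset.sum_congr rfl fun i _ => Finset.sum_congr rfl fun j _ => by ring

lemma pairing_vecMulVec (M : Matrix (Fin (m + 1)) (Fin (m + 1)) ℝ) (a b : Fin (m + 1) → ℝ) :
    pairing M (vecMulVec a b) = a ⬝ᵥ (M *ᵥ b) := by
  simp only [pairing, vecMulVec_apply, dotProduct, mulVec, Finset.mul_sum]
  exact Finset.sum_congr rfl fun i _ => Finset.sum_congr rfl fun j _ => by ring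

lemma pairing_pv (M : Matrix (Fin (m + 1)) (Fin (m + 1)) ℝ) :
    pairing M (diagonal (pv m)) = ∑ i, pv m i * M i i := by
  simp only [pairing, diagonal_apply, mul_ite, mul_zero, Finset.sum_ite_eq, mem_univ, if_true]
  exact Finset.sum_congr rfl fun i _ => mul_comm _ _

lemma pairing_comm_inv {M H : Matrix (Fin (m + 1)) (Fin (m + 1)) ℝ} (hH : Hᵀ = H)
    (h : H * M = 1) : pairing M H = (m : ℝ) + 1 := by
  have hMH : M * H = 1 := mul_eq_one_comm.1 h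
  have : ∀ i, ∑ j, M i j * H i j = 1 := by
    intro i
    have e := congrFun (congrFun hMH i) i
    rw [mul_apply, one_apply_eq] at e
    rw [← e]
    refine Finset.sum_congr rfl fun j _ => ?_
    rw [← congrFun (congrFun hH j) i, transpose_apply]
  simp [pairing, this]

lemma pairing_M_pv (hp : diagonal (pv m) *ᵥ p = p) :
    pairing (Mmat u ψ ψ₁ ψ₂ z p) (diagonal (pv m))
      = u * (ψ₁⁻¹ * m + (-(2 * ψ₂) / (ψ₁ * lq ψ₁ ψ₂ p)) * (p ⬝ᵥ p)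
          + (eq' ψ ψ₁ ψ₂ p)⁻¹ * ((ψ₁ / lq ψ₁ ψ₂ p) ^ 2 * (p ⬝ᵥ p))) := by
  rw [pairing_pv]
  have hpp : ∀ i, pv m i * (p i * p i) = p i * p i := fun i => by
    conv_rhs => rw [← congrFun hp i, mulVec_diagonal]
    linear_combination -(p i * p i) * pv_mul_self i
  have hee : ∀ i, pv m i * (ev m i * ev m i) = 0 := fun i => by
    rw [← mul_assoc, pv_ev, zero_mul]
  have e : ∀ i, pv m i * Mmat u ψ ψ₁ ψ₂ z p i i
      = u * ψ₁⁻¹ * pv m i + u * (-(2 * ψ₂) / (ψ₁ * lq ψ₁ ψ₂ p)) * (p i * p i)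
        + u * (eq' ψ ψ₁ ψ₂ p)⁻¹ * (ψ₁ / lq ψ₁ ψ₂ p) ^ 2 * (p i * p i) := by
    intro i
    simp only [Mmat, Bmat, vvec, Matrix.smul_apply, Matrix.add_apply, diagonal_apply_eq, vecMulVec_apply,
      smul_eq_mul, Pi.add_apply, Pi.smul_apply]
    linear_combination (u * ψ₁⁻¹) * pv_mul_self i + (u * (-(2 * ψ₂) / (ψ₁ * lq ψ₁ ψ₂ p))
      + u * (eq' ψ ψ₁ ψ₂ p)⁻¹ * (ψ₁ / lq ψ₁ ψ₂ p) ^ 2) * hpp i
      + (u + u * (eq' ψ ψ₁ ψ₂ p)⁻¹ * z ^ 2) * hee i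
      + (2 * u * (eq' ψ ψ₁ ψ₂ p)⁻¹ * (ψ₁ / lq ψ₁ ψ₂ p) * z * p i) * pv_ev i
  simp only [e, Finset.sum_add_distrib, ← Finset.mul_sum, sum_pv]
  simp only [dotProduct]
  ring

lemma dots_M (hp : diagonal (pv m) *ᵥ p = p) (hu2 : u ^ 2 = z ^ 2 + ψ) (h1 : ψ₁ ≠ 0)
    (hL : lq ψ₁ ψ₂ p ≠ 0) (hE : eq' ψ ψ₁ ψ₂ p ≠ 0) :
    p ⬝ᵥ (Mmat u ψ ψ₁ ψ₂ z p *ᵥ p)
        = u * (p ⬝ᵥ p) * ψ / (lq ψ₁ ψ₂ p * eq' ψ ψ₁ ψ₂ p) ∧
      p ⬝ᵥ (Mmat u ψ ψ₁ ψ₂ z p *ᵥ wvec ψ₁ z p)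
        = u ^ 3 * ψ₁ * (p ⬝ᵥ p) / (lq ψ₁ ψ₂ p * eq' ψ ψ₁ ψ₂ p) ∧
      wvec ψ₁ z p ⬝ᵥ (Mmat u ψ ψ₁ ψ₂ z p *ᵥ p)
        = u ^ 3 * ψ₁ * (p ⬝ᵥ p) / (lq ψ₁ ψ₂ p * eq' ψ ψ₁ ψ₂ p) ∧
      wvec ψ₁ z p ⬝ᵥ (Mmat u ψ ψ₁ ψ₂ z p *ᵥ wvec ψ₁ z p)
        = u ^ 3 * (u ^ 2 - eq' ψ ψ₁ ψ₂ p) / eq' ψ ψ₁ ψ₂ p := by
  have hpe := p_dot_ev hp
  have hep : ev m ⬝ᵥ p = 0 := by rw [dotProduct_comm, hpe]
  have hq := q_add hu2 hL hp
  have hvp : vvec ψ₁ ψ₂ z p ⬝ᵥ p = ψ₁ / lq ψ₁ ψ₂ p * (p ⬝ᵥ p) := by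
    simp [vvec, add_dotProduct, hep]
  have hpv : p ⬝ᵥ vvec ψ₁ ψ₂ z p = ψ₁ / lq ψ₁ ψ₂ p * (p ⬝ᵥ p) := by
    rw [dotProduct_comm, hvp]
  have hBp : Bmat ψ₁ ψ₂ p *ᵥ p = (lq ψ₁ ψ₂ p)⁻¹ • p := by
    simp only [Bmat, add_mulVec, smul_mulVec, vecMulVec_mulVec, op_smul_eq_smul, hp, hep,
      zero_smul, add_zero, smul_smul]
    match_scalars
    field_simp
    simp only [lq]
    ring
  have hvw : vvec ψ₁ ψ₂ z p ⬝ᵥ wvec ψ₁ z p = u ^ 2 - eq' ψ ψ₁ ψ₂ p := by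
    rw [dotProduct_comm, hq]
  have hwp : wvec ψ₁ z p ⬝ᵥ p = ψ₁ * (p ⬝ᵥ p) := by
    simp [wvec, add_dotProduct, hep]
  have hψ : (p ⬝ᵥ p) * ψ₁ ^ 2 = (ψ - eq' ψ ψ₁ ψ₂ p) * lq ψ₁ ψ₂ p := by
    simp only [eq']; field_simp; ring
  simp only [Mmat, smul_mulVec, add_mulVec, vecMulVec_mulVec, op_smul_eq_smul, hBp,
    B_mulVec_w hp h1 hL, hvp, hvw, dotProduct_smul, dotProduct_add, smul_eq_mul, hpv, hq, hwp]
  refine ⟨?_, ?_, ?_, ?_⟩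
  · field_simp
    linear_combination u * (p ⬝ᵥ p) * hψ
  · field_simp
    ring
  · field_simp
    ring
  · field_simp
    ring

end Vale.Agent.P252
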