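import Mathlib

/-! Trapping region of the reduced autonomous system behind the affine maximal ansatz. -/

namespace Vale.Agent.P252

open Set Metric Topology
open scoped NNReal

/-- The auxiliary constant `(μ+3)/(μ+2)`. -/
noncomputable def gam (μ : ℝ) : ℝ := (μ + 3) / (μ + 2)

/-- The reduced vector field in `(k, x, h)`. -/
noncomputable def fld (μ : ℝ) (p : ℝ × ℝ × ℝ) : ℝ × ℝ × ℝ :=
  (p.1 * (2 + p.2.1 - p.1),
   (1 + p.2.1) * (p.1 - μ * p.2.1 + gam μ * p.2.2),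
   p.2.2 * (1 + p.2.2 - (μ - 1) * (1 + p.2.1)) + (μ + 2) * (1 + p.2.1) * p.1)

lemma contDiff_fld (μ : ℝ) : ContDiff ℝ ⊤ (fld μ) := by
  unfold fld
  fun_prop

/-- Parameters of a trapping region. -/
structure Trap (μ : ℝ) where
  X : ℝ
  c : ℝ
  H : ℝ
  X_pos : 0 < X
  c_pos : 0 < c
  c_lt : c < μ + 2
  H0_pos : 0 < H - c * X
  fix1 : gam μ * H = (μ - 1) * X - 2
  fix2 : H * (1 + H - (μ - 1) * (1 + X)) + (μ + 2) * (1 + X) * (2 + X) = 0
  face : (gam μ + X) * c ^ 2 - 2 * (H + 1) * c + H * (1 + H) / (1 + X) ≤ 0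

lemma one_lt_gam {μ : ℝ} (hμ : 9 ≤ μ) : 1 < gam μ := by
  rw [gam, lt_div_iff₀ (by linarith)]; linarith

lemma exists_trap {μ : ℝ} (hμ : 9 ≤ μ) : Nonempty (Trap μ) := by
  have hg1 := one_lt_gam hμ
  have hg : 0 < gam μ := by linarith
  let h : ℝ → ℝ := fun X => ((μ - 1) * X - 2) / gam μ
  let Q : ℝ → ℝ := fun X => h X * (1 + h X - (μ - 1) * (1 + X)) + (μ + 2) * (1 + X) * (2 + X)
  have hm2 : 0 < μ - 2 := by linarith
  have hQ0 : 0 < Q (2 / (μ - 2)) := by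
    have hh : h (2 / (μ - 2)) = 2 / ((μ - 2) * gam μ) := by
      simp only [h]; field_simp; ring
    have hpos : 0 < h (2 / (μ - 2)) := by rw [hh]; positivity
    have hlt : h (2 / (μ - 2)) * (μ - 1) < 4 := by
      rw [hh, div_mul_eq_mul_div, div_lt_iff₀ (by positivity)]
      nlinarith [mul_lt_mul_of_pos_left hg1 hm2]
    have hX : 0 < 2 / (μ - 2) := by positivity
    simp only [Q]
    nlinarith [mul_pos hpos hpos, mul_pos hX hX]
  have hQ1 : Q (5 / 2) ≤ 0 := by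
    have hh : h (5 / 2) = (5 * μ - 9) * (μ + 2) / (2 * (μ + 3)) := by
      simp only [h, gam]; field_simp; ring
    have e : Q (5 / 2) = (μ + 2) * ((μ - 9) * (-10 * μ ^ 2 - 64 * μ - 54)) / (4 * (μ + 3) ^ 2) := by
      simp only [Q, hh]; field_simp; ring
    rw [e]
    apply div_nonpos_of_nonpos_of_nonneg _ (by positivity)
    apply mul_nonpos_of_nonneg_of_nonpos (by linarith)
    apply mul_nonpos_of_nonneg_of_nonpos (by linarith)
    nlinarith
  have hle : 2 / (μ - 2) ≤ 5 / 2 := by rw [div_le_iff₀ hm2]; linarith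
  have hc : Continuous Q := by simp only [Q, h]; fun_prop
  obtain ⟨X, ⟨hX1, -⟩, hX⟩ := intermediate_value_Icc' hle hc.continuousOn ⟨hQ1, hQ0.le⟩
  have hX2 : 2 / (μ - 2) < X := by
    rcases hX1.lt_or_eq with h' | h'
    · exact h'
    · rw [h'] at hQ0; linarith
  have hXp : 0 < X := lt_of_le_of_lt (by positivity) hX2
  rw [div_lt_iff₀ hm2] at hX2
  set H := h X with hH
  have hfix : gam μ * H = (μ - 1) * X - 2 := by
    simp only [hH, h]; field_simp
  have hHp : 0 < H := by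
    apply div_pos _ hg; nlinarith
  have hHlt : H < (μ - 1) * X := by nlinarith
  have hgm : gam μ - 1 = 1 / (μ + 2) := by rw [gam]; field_simp; ring
  have hX1' : H * (gam μ - 1) ≤ X + 1 := by
    rw [hgm, mul_one_div, div_le_iff₀ (by linarith)]; nlinarith
  have hd : 0 < gam μ + X := by linarith
  refine ⟨⟨X, (H + 1) / (gam μ + X), H, hXp, by positivity, ?_, ?_, hfix, hX, ?_⟩⟩
  · rw [div_lt_iff₀ hd]; nlinarith
  · rw [sub_pos, div_mul_eq_mul_div, div_lt_iff₀ hd]; nlinarith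
  · have e : (gam μ + X) * ((H + 1) / (gam μ + X)) ^ 2 - 2 * (H + 1) * ((H + 1) / (gam μ + X))
        + H * (1 + H) / (1 + X)
        = (H + 1) * (H * (gam μ + X) - (H + 1) * (1 + X)) / ((gam μ + X) * (1 + X)) := by
      field_simp; ring
    rw [e]
    apply div_nonpos_of_nonpos_of_nonneg _ (by positivity)
    apply mul_nonpos_of_nonneg_of_nonpos (by linarith)
    nlinarith

namespace Trap

variable {μ : ℝ} (T : Trap μ)

lemma H_pos : 0 < T.H := by nlinarith [T.H0_pos, mul_pos T.c_pos T.X_pos]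

/-- The open trapping region. -/
def region : Set (ℝ × ℝ × ℝ) :=
  {p | 0 < p.1 ∧ p.1 < 2 + T.X ∧ 0 < p.2.1 ∧ p.2.1 < T.X ∧ 0 < p.2.2 ∧
    p.2.2 < T.H + T.c * (p.2.1 - T.X)}

lemma isOpen_region : IsOpen T.region := by
  unfold region
  simp only [ofPred_and]
  repeat' apply IsOpen.inter
  all_goals first
    | exact isOpen_lt continuous_const (by fun_prop)
    | exact isOpen_lt (by fun_prop) continuous_const
    | exact isOpen_lt (by fun_prop) (by fun_prop)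

/-- Bound for the diagonal rates. -/
noncomputable def rate : ℝ := (2 + T.X) + (1 + T.X) * (gam μ * T.c + 2 * μ) + T.H

lemma face_identity (k x h : ℝ) :
    T.c * ((1 + x) * (k - μ * x + gam μ * h))
        - (h * (1 + h - (μ - 1) * (1 + x)) + (μ + 2) * (1 + x) * k)
      = (1 + x) * (2 + T.X - k) * (μ + 2 - T.c)
        + (T.X - x) * (-(T.c ^ 2 * gam μ * (1 + T.X) - T.c * (1 + T.X + 2 * T.H + 1)
            + (μ - 1) * T.H - (μ + 2) * (2 + T.X))
          + T.c * ((gam μ - 1) * T.c - 1) * (T.X - x))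
        + (T.H + T.c * (x - T.X) - h) * (-(T.c * gam μ * (1 + x)) + 1
          + 2 * (T.H - T.c * (T.X - x)) - (μ - 1) * (1 + x) - (T.H + T.c * (x - T.X) - h)) := by
  linear_combination T.c * (1 + x) * T.fix1 - T.fix2

lemma face_const : (μ - 1) * T.H - (μ + 2) * (2 + T.X) = T.H * (1 + T.H) / (1 + T.X) := by
  rw [eq_div_iff (by linarith [T.X_pos])]; linear_combination -T.fix2

lemma rate_face (hμ : 9 ≤ μ) {k x h : ℝ} (hp : (k, x, h) ∈ T.region) :
    -(T.rate) * (T.H + T.c * (x - T.X) - h)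
      ≤ T.c * (fld μ (k, x, h)).2.1 - (fld μ (k, x, h)).2.2 := by
  obtain ⟨hk0, hk, hx0, hx, hh0, hh⟩ := hp
  simp only [fld] at *
  rw [T.face_identity k x h]
  have hXp := T.X_pos
  have hc := T.c_pos
  have hc2 := T.c_lt
  have hg1 := one_lt_gam hμ
  have hgm : gam μ - 1 = 1 / (μ + 2) := by rw [gam]; field_simp; ring
  have hB : T.c * ((gam μ - 1) * T.c - 1) ≤ 0 := by
    apply mul_nonpos_of_nonneg_of_nonpos hc.le
    rw [hgm, one_div_mul_eq_div, sub_nonpos, div_le_one (by linarith)]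
    exact hc2.le
  set B := T.c * ((gam μ - 1) * T.c - 1) with hB'
  set A := T.c ^ 2 * gam μ * (1 + T.X) - T.c * (1 + T.X + 2 * T.H + 1) + (μ - 1) * T.H
      - (μ + 2) * (2 + T.X) with hA'
  have hP : A - T.X * B ≤ 0 := by
    have := T.face
    rw [← T.face_const] at this
    have : A - T.X * B = (gam μ + T.X) * T.c ^ 2 - 2 * (T.H + 1) * T.c
        + ((μ - 1) * T.H - (μ + 2) * (2 + T.X)) := by rw [hA', hB']; ring
    linarith
  have h1 : 0 ≤ (T.X - x) * (-A + B * (T.X - x)) := by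
    have := mul_le_mul_of_nonpos_left (show T.X - x ≤ T.X by linarith) hB
    exact mul_nonneg (by linarith) (by linarith)
  have h2 : 0 ≤ (1 + x) * (2 + T.X - k) * (μ + 2 - T.c) :=
    mul_nonneg (mul_nonneg (by linarith) (by linarith)) (by linarith)
  have hgc : 0 ≤ T.c * gam μ := mul_nonneg hc.le (by linarith)
  have p1 : T.c * gam μ * (1 + x) ≤ T.c * gam μ * (1 + T.X) :=
    mul_le_mul_of_nonneg_left (by linarith) hgc
  have p2 : (μ - 1) * (1 + x) ≤ 2 * μ * (1 + T.X) :=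
    mul_le_mul (by linarith) (by linarith) (by linarith) (by linarith)
  have p3 : T.c * (x - T.X) ≤ 0 := mul_nonpos_of_nonneg_of_nonpos hc.le (by linarith)
  have h4 : -(T.rate) ≤ -(T.c * gam μ * (1 + x)) + 1 + 2 * (T.H - T.c * (T.X - x))
      - (μ - 1) * (1 + x) - (T.H + T.c * (x - T.X) - h) := by
    unfold rate; linarith
  have h5 := mul_le_mul_of_nonneg_right h4 (show 0 ≤ T.H + T.c * (x - T.X) - h by linarith)
  linarith

lemma rates (hμ : 9 ≤ μ) {k x h : ℝ} (hp : (k, x, h) ∈ T.region) :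
    -(T.rate) * k ≤ (fld μ (k, x, h)).1 ∧
    (fld μ (k, x, h)).1 ≤ T.rate * (2 + T.X - k) ∧
    -(T.rate) * x ≤ (fld μ (k, x, h)).2.1 ∧
    (fld μ (k, x, h)).2.1 ≤ T.rate * (T.X - x) ∧
    -(T.rate) * h ≤ (fld μ (k, x, h)).2.2 ∧
    -(T.rate) * (T.H + T.c * (x - T.X) - h)
      ≤ T.c * (fld μ (k, x, h)).2.1 - (fld μ (k, x, h)).2.2 := by
  obtain ⟨hk0, hk, hx0, hx, hh0, hh⟩ := hp
  simp only [fld] at *
  have hg1 := one_lt_gam hμ
  have hXp := T.X_pos
  have hc := T.c_pos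
  have hH := T.H_pos
  have hgc : 0 ≤ gam μ * T.c := by nlinarith
  have e1 := T.fix1
  have e2 := T.fix2
  have hr1 : 2 + T.X ≤ T.rate := by unfold rate; nlinarith
  have hr2 : (1 + T.X) * (gam μ * T.c + 2 * μ) ≤ T.rate := by unfold rate; nlinarith
  have hr3 : (1 + T.X) * (gam μ * T.c + 2 * μ) + T.H ≤ T.rate := by unfold rate; linarith
  refine ⟨?_, ?_, ?_, ?_, ?_, ?_⟩
  · nlinarith
  · nlinarith [mul_le_mul_of_nonneg_right (le_trans hk.le hr1) (sub_nonneg.2 hk.le),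
      mul_pos hk0 (sub_pos.2 hx)]
  · have : (1 + x) * (-(μ * x)) ≤ (1 + x) * (k - μ * x + gam μ * h) :=
      mul_le_mul_of_nonneg_left (by nlinarith) (by linarith)
    have : (1 + x) * μ ≤ T.rate := by nlinarith
    nlinarith [mul_le_mul_of_nonneg_right this hx0.le]
  · have h1 : k - μ * x + gam μ * h ≤ μ * (T.X - x) := by
      nlinarith [mul_le_mul_of_nonneg_left (show h ≤ T.H by nlinarith) (show 0 ≤ gam μ by linarith)]
    have h2 := mul_le_mul_of_nonneg_left h1 (show 0 ≤ 1 + x by linarith)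
    have : (1 + x) * μ ≤ T.rate := by nlinarith
    nlinarith [mul_le_mul_of_nonneg_right this (sub_nonneg.2 hx.le)]
  · have h1 : 0 ≤ (μ + 2) * (1 + x) * k := by positivity
    have : (μ - 1) * (1 + x) ≤ T.rate := by nlinarith
    nlinarith [mul_le_mul_of_nonneg_right this hh0.le, mul_pos hh0 hh0]
  · exact T.rate_face hμ ⟨hk0, hk, hx0, hx, hh0, hh⟩

end Trap

lemma pos_of_rate {f f' : ℝ → ℝ} {a b M : ℝ} (hab : a ≤ b) (hc : ContinuousOn f (Icc a b))
    (hd : ∀ t ∈ Ioo a b, HasDerivAt f (f' t) t) (hb : ∀ t ∈ Ioo a b, -M * f t ≤ f' t)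
    (ha : 0 < f a) : 0 < f b := by
  have hd' : ∀ t ∈ Ioo a b,
      HasDerivAt (fun t => f t * Real.exp (M * t)) ((f' t + M * f t) * Real.exp (M * t)) t := by
    intro t ht
    exact ((hd t ht).fun_mul (((hasDerivAt_id' t).const_mul M).exp)).congr_deriv (by ring)
  have hm : MonotoneOn (fun t => f t * Real.exp (M * t)) (Icc a b) := by
    apply monotoneOn_of_deriv_nonneg (convex_Icc a b) (hc.mul (by fun_prop))
    · rw [interior_Icc]
      exact fun t ht => (hd' t ht).differentiableAt.differentiableWithinAt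
    · rw [interior_Icc]
      intro t ht
      have e := (hd' t ht).deriv
      refine le_of_le_of_eq ?_ e.symm
      exact mul_nonneg (by linarith [hb t ht]) (Real.exp_pos _).le
  have h1 := hm (left_mem_Icc.2 hab) (right_mem_Icc.2 hab) hab
  by_contra h2
  have : f b * Real.exp (M * b) ≤ 0 :=
    mul_nonpos_of_nonpos_of_nonneg (not_lt.1 h2) (Real.exp_pos _).le
  nlinarith [mul_pos ha (Real.exp_pos (M * a))]

lemma trapped {μ : ℝ} (hμ : 9 ≤ μ) (T : Trap μ) {y : ℝ → ℝ × ℝ × ℝ} {F : ℝ × ℝ × ℝ → ℝ × ℝ × ℝ}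
    {t₀ : ℝ} (hy : ∀ t, HasDerivAt y (F (y t)) t) (hF : EqOn F (fld μ) T.region)
    (h₀ : y t₀ ∈ T.region) : ∀ t, t₀ ≤ t → y t ∈ T.region := by
  by_contra hcon
  push Not at hcon
  obtain ⟨t₁, ht₁, hn⟩ := hcon
  have hcy : Continuous y := continuous_iff_continuousAt.2 fun t => (hy t).continuousAt
  set S := Icc t₀ t₁ ∩ y ⁻¹' T.regionᶜ with hS
  have hne : S.Nonempty := ⟨t₁, ⟨ht₁, le_rfl⟩, hn⟩
  have hcl : IsClosed S := isClosed_Icc.inter (T.isOpen_region.isClosed_compl.preimage hcy)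
  have hbd : BddBelow S := ⟨t₀, fun t ht => ht.1.1⟩
  obtain ⟨⟨hT0, hT1⟩, hTn⟩ := hcl.csInf_mem hne hbd
  have hin : ∀ t ∈ Ioo t₀ (sInf S), y t ∈ T.region := by
    intro t ht
    by_contra h
    have : sInf S ≤ t := csInf_le hbd ⟨⟨ht.1.le, ht.2.le.trans hT1⟩, h⟩
    linarith [ht.2]
  have hy' : ∀ t ∈ Ioo t₀ (sInf S), HasDerivAt y (fld μ (y t)) t :=
    fun t ht => hF (hin t ht) ▸ hy t
  obtain ⟨i1, i2, i3, i4, i5, i6⟩ := h₀
  have hk : ∀ t ∈ Ioo t₀ (sInf S), HasDerivAt (fun s => (y s).1) (fld μ (y t)).1 t :=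
    fun t ht => (hasFDerivAt_fst (p := y t)).comp_hasDerivAt t (hy' t ht)
  have hx : ∀ t ∈ Ioo t₀ (sInf S), HasDerivAt (fun s => (y s).2.1) (fld μ (y t)).2.1 t :=
    fun t ht => (hasFDerivAt_fst (𝕜 := ℝ) (E := ℝ) (F := ℝ)).comp_hasDerivAt t
      ((hasFDerivAt_snd (p := y t)).comp_hasDerivAt t (hy' t ht))
  have hh : ∀ t ∈ Ioo t₀ (sInf S), HasDerivAt (fun s => (y s).2.2) (fld μ (y t)).2.2 t :=
    fun t ht => (hasFDerivAt_snd (𝕜 := ℝ) (E := ℝ) (F := ℝ)).comp_hasDerivAt t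
      ((hasFDerivAt_snd (p := y t)).comp_hasDerivAt t (hy' t ht))
  have r := fun t ht => T.rates hμ (hin t ht)
  apply hTn
  have c : ∀ {g : ℝ → ℝ}, Continuous g → ContinuousOn g (Icc t₀ (sInf S)) := fun h => h.continuousOn
  refine ⟨?_, ?_, ?_, ?_, ?_, ?_⟩
  · exact pos_of_rate hT0 (c (by fun_prop)) hk (fun t ht => (r t ht).1) i1
  · have := pos_of_rate (f := fun t => 2 + T.X - (y t).1) (M := T.rate) hT0 (c (by fun_prop))
      (fun t ht => (hk t ht).const_sub _) (fun t ht => by linarith [(r t ht).2.1]) (by linarith)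
    linarith
  · exact pos_of_rate hT0 (c (by fun_prop)) hx (fun t ht => (r t ht).2.2.1) i3
  · have := pos_of_rate (f := fun t => T.X - (y t).2.1) (M := T.rate) hT0 (c (by fun_prop))
      (fun t ht => (hx t ht).const_sub _) (fun t ht => by linarith [(r t ht).2.2.2.1]) (by linarith)
    linarith
  · exact pos_of_rate hT0 (c (by fun_prop)) hh (fun t ht => (r t ht).2.2.2.2.1) i5
  · have := pos_of_rate (f := fun t => T.H + T.c * ((y t).2.1 - T.X) - (y t).2.2) (M := T.rate)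
      hT0 (c (by fun_prop))
      (fun t ht => ((((hx t ht).sub_const T.X).const_mul T.c).const_add T.H).sub (hh t ht))
      (fun t ht => by linarith [(r t ht).2.2.2.2.2]) (by linarith)
    linarith

/-- Truncation to the interval `[0, b]`. -/
noncomputable def clamp (b x : ℝ) : ℝ := max 0 (min b x)

lemma lipschitz_clamp (b : ℝ) : LipschitzWith 1 (clamp b) :=
  (LipschitzWith.id.const_min b).const_max 0

lemma clamp_of_mem {b x : ℝ} (h0 : 0 ≤ x) (h1 : x ≤ b) : clamp b x = x := by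
  rw [clamp, min_eq_right h1, max_eq_right h0]

lemma clamp_mem {b x : ℝ} (hb : 0 ≤ b) : clamp b x ∈ Icc 0 b :=
  ⟨le_max_left _ _, max_le hb (min_le_left _ _)⟩

/-- Truncation to a box. -/
noncomputable def clamp3 (c p : ℝ × ℝ × ℝ) : ℝ × ℝ × ℝ :=
  (clamp c.1 p.1, clamp c.2.1 p.2.1, clamp c.2.2 p.2.2)

lemma lipschitz_clamp3 (c : ℝ × ℝ × ℝ) : LipschitzWith 1 (clamp3 c) := by
  have a : LipschitzWith 1 fun p : ℝ × ℝ × ℝ => clamp c.1 p.1 := by
    simpa [Function.comp_def] using (lipschitz_clamp c.1).comp (LipschitzWith.prod_fst (β := ℝ × ℝ))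
  have b : LipschitzWith 1 fun p : ℝ × ℝ × ℝ => clamp c.2.1 p.2.1 := by
    simpa [Function.comp_def] using (lipschitz_clamp c.2.1).comp
      ((LipschitzWith.prod_fst (β := ℝ)).comp (LipschitzWith.prod_snd (α := ℝ)))
  have d : LipschitzWith 1 fun p : ℝ × ℝ × ℝ => clamp c.2.2 p.2.2 := by
    simpa [Function.comp_def] using (lipschitz_clamp c.2.2).comp
      ((LipschitzWith.prod_snd (α := ℝ) (β := ℝ)).comp (LipschitzWith.prod_snd (α := ℝ)))
  show LipschitzWith 1 fun p : ℝ × ℝ × ℝ => (clamp c.1 p.1, clamp c.2.1 p.2.1, clamp c.2.2 p.2.2)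
  simpa using a.prodMk (b.prodMk d)

lemma exists_trunc (μ : ℝ) (c : ℝ × ℝ × ℝ) (hc : 0 ≤ c) :
    ∃ (L : ℝ≥0) (M : ℝ≥0), LipschitzWith L (fld μ ∘ clamp3 c) ∧
      ∀ p, ‖fld μ (clamp3 c p)‖ ≤ M := by
  have hcomp : IsCompact (Icc (0 : ℝ × ℝ × ℝ) c) := isCompact_Icc
  have hm : ∀ p, clamp3 c p ∈ Icc (0 : ℝ × ℝ × ℝ) c := fun p =>
    ⟨⟨(clamp_mem hc.1).1, (clamp_mem hc.2.1).1, (clamp_mem hc.2.2).1⟩,
     ⟨(clamp_mem hc.1).2, (clamp_mem hc.2.1).2, (clamp_mem hc.2.2).2⟩⟩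
  obtain ⟨L, hL⟩ := ((contDiff_fld μ).of_le le_top : ContDiff ℝ 1 (fld μ)).contDiffOn
    (s := Icc (0 : ℝ × ℝ × ℝ) c) |>.exists_lipschitzOnWith one_ne_zero (convex_Icc 0 c) hcomp
  obtain ⟨M, hM⟩ := hcomp.exists_bound_of_continuousOn (contDiff_fld μ).continuous.continuousOn
  refine ⟨L, M.toNNReal, ?_, fun p => (hM _ (hm p)).trans (Real.le_coe_toNNReal M)⟩
  have := lipschitzOnWith_univ.1
    (hL.comp ((lipschitz_clamp3 c).lipschitzOnWith (s := univ)) (fun p _ => hm p))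
  simpa using this

lemma exists_global {E : Type*} [NormedAddCommGroup E] [NormedSpace ℝ E] [CompleteSpace E]
    {F : E → E} {L M : ℝ≥0} (hL : LipschitzWith L F) (hM : ∀ p, ‖F p‖ ≤ M) (t₀ : ℝ) (y₀ : E) :
    ∃ y : ℝ → E, y t₀ = y₀ ∧ ∀ t, HasDerivAt y (F (y t)) t := by
  have hn : ∀ n : ℕ, ∃ y : ℝ → E, y t₀ = y₀ ∧
      ∀ t ∈ Ioo (t₀ - (n + 1)) (t₀ + (n + 1)), HasDerivAt y (F (y t)) t := by
    intro n
    have hp : (0 : ℝ) ≤ n + 1 := by positivity
    have ht : t₀ ∈ Icc (t₀ - (n + 1)) (t₀ + (n + 1)) := ⟨by linarith, by linarith⟩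
    have hpl : IsPicardLindelof (fun _ => F) (⟨t₀, ht⟩ : Icc (t₀ - (n + 1 : ℝ)) (t₀ + (n + 1)))
        y₀ (M * (n + 1)) 0 M L := by
      apply IsPicardLindelof.of_time_independent (fun p _ => hM p) hL.lipschitzOnWith
      simp
    obtain ⟨y, hy0, hy⟩ := hpl.exists_eq_forall_mem_Icc_hasDerivWithinAt₀
    exact ⟨y, hy0, fun t ht => (hy t (Ioo_subset_Icc_self ht)).hasDerivAt
      (Icc_mem_nhds ht.1 ht.2)⟩
  choose z hz0 hz using hn
  have agree : ∀ (n k : ℕ), n ≤ k → EqOn (z n) (z k) (Ioo (t₀ - (n + 1)) (t₀ + (n + 1))) := by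
    intro n k hk
    have hkk : (n : ℝ) ≤ k := by exact_mod_cast hk
    have hp : (0 : ℝ) < n + 1 := by positivity
    refine ODE_solution_unique_of_mem_Ioo (v := fun _ => F) (s := fun _ => univ)
      (t₀ := t₀) (fun t _ => hL.lipschitzOnWith) ⟨by linarith, by linarith⟩
      (fun t ht => ⟨hz n t ht, trivial⟩)
      (fun t ht => ⟨hz k t ⟨by linarith [ht.1], by linarith [ht.2]⟩, trivial⟩) (by rw [hz0, hz0])
  let idx : ℝ → ℕ := fun t => ⌈|t - t₀|⌉₊
  refine ⟨fun t => z (idx t) t, hz0 _, fun t => ?_⟩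
  have hin : ∀ s, s ∈ Ioo (t₀ - (idx s + 1 : ℝ)) (t₀ + (idx s + 1)) := by
    intro s
    have := Nat.le_ceil |s - t₀|
    constructor <;> linarith [neg_abs_le (s - t₀), le_abs_self (s - t₀)]
  have ev : (fun s => z (idx s) s) =ᶠ[𝓝 t] z (idx t) := by
    filter_upwards [Ioo_mem_nhds (hin t).1 (hin t).2] with s hs
    rcases le_total (idx s) (idx t) with h | h
    · exact agree _ _ h (hin s)
    · exact (agree _ _ h hs).symm
  exact (hz (idx t) t (hin t)).congr_of_eventuallyEq ev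

lemma contDiffAt_of_trajectory {μ : ℝ} {y : ℝ → ℝ × ℝ × ℝ} {U : Set ℝ} (hU : IsOpen U)
    (hy : ∀ t ∈ U, HasDerivAt y (fld μ (y t)) t) {t : ℝ} (ht : t ∈ U) :
    ContDiffAt ℝ (↑(⊤ : ℕ∞)) y t := by
  obtain ⟨ε, hε, hb⟩ := nhds_basis_Icc_pos t |>.mem_iff.1 (hU.mem_nhds ht)
  have := ODE.contDiffOn_enat_Icc_of_hasDerivWithinAt (n := (⊤ : ℕ∞)) (α := y)
    (f := fun _ => fld μ) (u := univ) (tmin := t - ε) (tmax := t + ε)
    (((contDiff_fld μ).of_le le_top).comp contDiff_snd).contDiffOn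
    (fun s hs => (hy s (hb hs)).hasDerivWithinAt) (mapsTo_univ _ _)
  exact this.contDiffAt (Icc_mem_nhds (by linarith) (by linarith))

lemma exists_trajectory {μ : ℝ} (hμ : 9 ≤ μ) (T : Trap μ) {z : ℝ → ℝ × ℝ × ℝ} {t₀ b : ℝ}
    (hb : t₀ < b) (hz : ∀ t < b, HasDerivAt z (fld μ (z t)) t)
    (hin : ∀ t ≤ t₀, z t ∈ T.region) :
    ∃ y : ℝ → ℝ × ℝ × ℝ, (∀ t, HasDerivAt y (fld μ (y t)) t) ∧ (∀ t, y t ∈ T.region) ∧
      ∀ t ≤ t₀, y t = z t := by
  set c : ℝ × ℝ × ℝ := (2 + T.X, T.X, T.H) with hc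
  have hcp : 0 ≤ c := ⟨by simp [hc]; linarith [T.X_pos], T.X_pos.le, T.H_pos.le⟩
  obtain ⟨L, M, hL, hM⟩ := exists_trunc μ c hcp
  have hF : EqOn (fld μ ∘ clamp3 c) (fld μ) T.region := by
    rintro ⟨k, x, h⟩ ⟨a1, a2, a3, a4, a5, a6⟩
    simp only [Function.comp, clamp3, hc]
    have : h < T.H := by simp only at a6; nlinarith [T.c_pos]
    rw [clamp_of_mem a1.le a2.le, clamp_of_mem a3.le a4.le, clamp_of_mem a5.le this.le]
  obtain ⟨y, hy0, hy⟩ := exists_global hL hM t₀ (z t₀)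
  have hreg : IsOpen T.region := T.isOpen_region
  have hleft : ∀ t ≤ t₀, y t = z t := by
    intro t ht
    have hzc : ContinuousOn z (Icc t t₀) :=
      fun s hs => (hz s (lt_of_le_of_lt hs.2 hb)).continuousAt.continuousWithinAt
    refine ODE_solution_unique_of_mem_Icc_left (v := fun _ => fld μ ∘ clamp3 c)
      (s := fun _ => univ) (fun s _ => hL.lipschitzOnWith)
      (fun s _ => (hy s).continuousAt.continuousWithinAt) (fun s _ => (hy s).hasDerivWithinAt)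
      (fun _ _ => trivial) hzc (fun s hs => ?_) (fun _ _ => trivial) hy0 ⟨le_rfl, ht⟩
    rw [hF (hin s hs.2)]
    exact (hz s (lt_of_le_of_lt hs.2 hb)).hasDerivWithinAt
  have hall : ∀ t, y t ∈ T.region := by
    intro t
    rcases le_total t t₀ with h | h
    · rw [hleft t h]; exact hin t h
    · exact trapped hμ T hy hF (hy0 ▸ hin t₀ le_rfl) t h
  exact ⟨y, fun t => hF (hall t) ▸ hy t, hall, hleft⟩

end Vale.Agent.P252
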