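import Mathlib
import Vale.Agent.P252.Flow

/-! Regular power-series solution of the reduced equations at the origin. -/

namespace Vale.Agent.P252

open Set Finset Topology

/-- Cauchy product of two coefficient sequences. -/
def conv (f g : ℕ → ℝ) (N : ℕ) : ℝ := ∑ i ∈ range (N + 1), f i * g (N - i)

lemma conv_congr {f f' g g' : ℕ → ℝ} {N : ℕ} (hf : ∀ i ≤ N, f i = f' i) (hg : ∀ i ≤ N, g i = g' i) :
    conv f g N = conv f' g' N :=
  sum_congr rfl fun i hi => by
    rw [hf i (Nat.lt_succ_iff.1 (mem_range.1 hi)), hg (N - i) (Nat.sub_le _ _)]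

lemma abs_conv_le {f g : ℕ → ℝ} {N : ℕ} {δ : ℝ} (hf : ∀ i ≤ N, |f i| ≤ δ) (hg : ∀ i ≤ N, |g i| ≤ δ) :
    |conv f g N| ≤ (N + 1) * (δ * δ) := by
  have h0 : 0 ≤ δ := (abs_nonneg _).trans (hf 0 (Nat.zero_le _))
  calc |conv f g N| ≤ ∑ i ∈ range (N + 1), |f i * g (N - i)| := abs_sum_le_sum_abs _ _
    _ ≤ ∑ i ∈ range (N + 1), δ * δ := sum_le_sum fun i hi => by
        rw [abs_mul]
        exact mul_le_mul (hf i (Nat.lt_succ_iff.1 (mem_range.1 hi))) (hg _ (Nat.sub_le _ _))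
          (abs_nonneg _) h0
    _ = (N + 1) * (δ * δ) := by simp

/-- Coefficient `N+1` from the earlier coefficients. -/
noncomputable def nextCoeff (μ : ℝ) (u : ℕ → ℝ × ℝ × ℝ) (N : ℕ) : ℝ × ℝ × ℝ :=
  let a : ℕ → ℝ := fun i => (u i).1
  let b : ℕ → ℝ := fun i => (u i).2.1
  let e : ℕ → ℝ := fun i => (u i).2.2
  let a' : ℝ := (conv a b N - 2 * conv a a N) / (2 * ((N : ℝ) + 1))
  let e' : ℝ := (2 * (μ + 2) * a' + (conv e e N - (μ - 1) * conv e b N + 2 * (μ + 2) * conv a b N))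
    / (2 * ((N : ℝ) + 1) + μ)
  let b' : ℝ := (2 * a' + gam μ * e' + (2 * conv a b N - μ * conv b b N + gam μ * conv b e N))
    / (2 * ((N : ℝ) + 1) + 2 + μ)
  (a', b', e')

/-- Tables of the first coefficients. -/
noncomputable def tableCoeff (μ ε : ℝ) : ℕ → ℕ → ℝ × ℝ × ℝ
  | 0 => fun _ => (ε, (2 * ε + gam μ * (2 * (μ + 2) * ε / μ)) / (2 + μ), 2 * (μ + 2) * ε / μ)
  | N + 1 => Function.update (tableCoeff μ ε N) (N + 1) (nextCoeff μ (tableCoeff μ ε N) N)

/-- Coefficients of `P`, `ξ`, `η`. -/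
noncomputable def coeffs (μ ε : ℝ) (N : ℕ) : ℝ × ℝ × ℝ := tableCoeff μ ε N N

lemma table_eq (μ ε : ℝ) : ∀ M i, i ≤ M → tableCoeff μ ε M i = coeffs μ ε i := by
  intro M
  induction M with
  | zero => intro i hi; rw [Nat.le_zero.1 hi]; rfl
  | succ M ih =>
    intro i hi
    rcases hi.lt_or_eq with h | h
    · show Function.update (tableCoeff μ ε M) (M + 1) _ i = _
      rw [Function.update_of_ne h.ne]; exact ih i (Nat.lt_succ_iff.1 h)
    · rw [h]; rfl

lemma nextCoeff_congr (μ : ℝ) {u v : ℕ → ℝ × ℝ × ℝ} {N : ℕ} (h : ∀ i ≤ N, u i = v i) :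
    nextCoeff μ u N = nextCoeff μ v N := by
  have ha : ∀ i ≤ N, (u i).1 = (v i).1 := fun i hi => by rw [h i hi]
  have hb : ∀ i ≤ N, (u i).2.1 = (v i).2.1 := fun i hi => by rw [h i hi]
  have he : ∀ i ≤ N, (u i).2.2 = (v i).2.2 := fun i hi => by rw [h i hi]
  simp only [nextCoeff, conv_congr ha hb, conv_congr ha ha, conv_congr he he, conv_congr he hb,
    conv_congr hb hb, conv_congr hb he]

lemma coeffs_succ (μ ε : ℝ) (N : ℕ) : coeffs μ ε (N + 1) = nextCoeff μ (coeffs μ ε) N := by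
  show Function.update (tableCoeff μ ε N) (N + 1) _ (N + 1) = _
  rw [Function.update_self]
  exact nextCoeff_congr μ (table_eq μ ε N)

lemma coeffs_bound {μ δ : ℝ} (hμ : 9 ≤ μ) (hδ : 0 < δ) (hδ' : δ * (100 * μ) ≤ 1) (N : ℕ) :
    |(coeffs μ (δ / 20) N).1| ≤ δ / 20 ∧ |(coeffs μ (δ / 20) N).2.1| ≤ δ ∧
      |(coeffs μ (δ / 20) N).2.2| ≤ δ / 4 := by
  have hg1 := one_lt_gam hμ
  have hg2 : gam μ ≤ 2 := by rw [gam, div_le_iff₀ (by linarith)]; linarith
  have hδ1 : δ * 900 ≤ 1 := le_trans (by nlinarith) hδ'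
  induction N using Nat.strong_induction_on with
  | _ N ih =>
  cases N with
  | zero =>
    have e0 : |2 * (μ + 2) * (δ / 20) / μ| ≤ δ / 4 := by
      rw [abs_of_nonneg (by positivity), div_le_iff₀ (by linarith)]; nlinarith
    refine ⟨le_of_eq (abs_of_pos (show 0 < δ / 20 by positivity)), ?_, e0⟩
    show |(2 * (δ / 20) + gam μ * (2 * (μ + 2) * (δ / 20) / μ)) / (2 + μ)| ≤ δ
    rw [abs_of_nonneg (by unfold gam; positivity), div_le_iff₀ (by linarith)]
    have := abs_le.1 e0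
    nlinarith
  | succ N =>
    rw [coeffs_succ]
    set a : ℕ → ℝ := fun i => (coeffs μ (δ / 20) i).1
    set b : ℕ → ℝ := fun i => (coeffs μ (δ / 20) i).2.1
    set e : ℕ → ℝ := fun i => (coeffs μ (δ / 20) i).2.2
    have ha : ∀ i ≤ N, |a i| ≤ δ := fun i hi => (ih i (by omega)).1.trans (by linarith)
    have hb : ∀ i ≤ N, |b i| ≤ δ := fun i hi => (ih i (by omega)).2.1
    have he : ∀ i ≤ N, |e i| ≤ δ := fun i hi => (ih i (by omega)).2.2.trans (by linarith)
    set n : ℝ := (N : ℝ) + 1 with hn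
    have hn0 : 1 ≤ n := by simp [hn]
    set q := n * (δ * δ) with hq
    have hq0 : 0 ≤ q := by positivity
    have hqd : q * (100 * μ) ≤ n * δ := by
      rw [hq, show n * (δ * δ) * (100 * μ) = (n * δ) * (δ * (100 * μ)) by ring]
      exact mul_le_of_le_one_right (by positivity) hδ'
    have cab := abs_le.1 (abs_conv_le ha hb : |conv a b N| ≤ q)
    have caa := abs_le.1 (abs_conv_le ha ha : |conv a a N| ≤ q)
    have cee := abs_le.1 (abs_conv_le he he : |conv e e N| ≤ q)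
    have ceb := abs_le.1 (abs_conv_le he hb : |conv e b N| ≤ q)
    have cbb := abs_le.1 (abs_conv_le hb hb : |conv b b N| ≤ q)
    have cbe := abs_le.1 (abs_conv_le hb he : |conv b e N| ≤ q)
    set a' := (conv a b N - 2 * conv a a N) / (2 * n) with ha'
    have ba : |a'| ≤ δ / 20 := by
      rw [ha', abs_div, abs_of_pos (show (0:ℝ) < 2 * n by linarith), div_le_iff₀ (by linarith), abs_le]
      constructor <;> nlinarith
    set e' := (2 * (μ + 2) * a' + (conv e e N - (μ - 1) * conv e b N + 2 * (μ + 2) * conv a b N))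
      / (2 * n + μ) with he'
    have ba' := abs_le.1 ba
    have be : |e'| ≤ δ / 4 := by
      rw [he', abs_div, abs_of_pos (show (0:ℝ) < 2 * n + μ by linarith),
        div_le_iff₀ (by linarith), abs_le]
      constructor <;> nlinarith
    have be' := abs_le.1 be
    refine ⟨ba, ?_, be⟩
    show |(2 * a' + gam μ * e' + (2 * conv a b N - μ * conv b b N + gam μ * conv b e N))
      / (2 * n + 2 + μ)| ≤ δ
    rw [abs_div, abs_of_pos (show (0:ℝ) < 2 * n + 2 + μ by linarith), div_le_iff₀ (by linarith),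
      abs_le]
    constructor <;> nlinarith

/-- Sum of a power series. -/
noncomputable def ps (f : ℕ → ℝ) (x : ℝ) : ℝ := ∑' N, f N * x ^ N

variable {f g : ℕ → ℝ} {δ x : ℝ}

lemma summable_norm_ps (hf : ∀ N, |f N| ≤ δ) (hx : |x| < 1) :
    Summable fun N => ‖f N * x ^ N‖ := by
  refine Summable.of_nonneg_of_le (fun N => norm_nonneg _) (fun N => ?_)
    ((summable_geometric_of_lt_one (abs_nonneg x) hx).mul_left δ)
  simp only [Real.norm_eq_abs, abs_mul, abs_pow]
  exact mul_le_mul_of_nonneg_right (hf N) (by positivity)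

lemma hasSum_ps (hf : ∀ N, |f N| ≤ δ) (hx : |x| < 1) :
    HasSum (fun N => f N * x ^ N) (ps f x) :=
  (summable_norm_ps hf hx).of_norm.hasSum

lemma hasSum_conv (hf : ∀ N, |f N| ≤ δ) (hg : ∀ N, |g N| ≤ δ) (hx : |x| < 1) :
    HasSum (fun N => conv f g N * x ^ N) (ps f x * ps g x) := by
  have h1 := summable_norm_ps hf hx
  have h2 := summable_norm_ps hg hx
  have e : (fun N => conv f g N * x ^ N)
      = fun N => ∑ k ∈ range (N + 1), (f k * x ^ k) * (g (N - k) * x ^ (N - k)) := by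
    funext N
    rw [conv, sum_mul]
    refine sum_congr rfl fun k hk => ?_
    rw [mul_mul_mul_comm, ← pow_add, Nat.add_sub_cancel' (Nat.lt_succ_iff.1 (mem_range.1 hk))]
  rw [e, ps, ps, tsum_mul_tsum_eq_tsum_sum_range_of_summable_norm h1 h2]
  exact ((summable_norm_sum_mul_range_of_summable_norm h1 h2).of_norm).hasSum

lemma hasSum_shift {c : ℕ → ℝ} {S : ℝ} (h0 : c 0 = 0)
    (h : HasSum (fun N => c (N + 1) * x ^ N) S) : HasSum (fun N => c N * x ^ N) (x * S) := by
  rw [← hasSum_nat_add_iff' 1]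
  simpa [h0, pow_succ, mul_comm, mul_left_comm, mul_assoc] using h.mul_left x

/-- Coefficients of the derivative. -/
def dps (f : ℕ → ℝ) (N : ℕ) : ℝ := ((N : ℝ) + 1) * f (N + 1)

lemma hasDerivAt_ps (hf : ∀ N, |f N| ≤ δ) (hx : |x| < 1) :
    HasDerivAt (ps f) (ps (dps f) x) x ∧ HasSum (fun N => dps f N * x ^ N) (ps (dps f) x) := by
  obtain ⟨r, hr1, hr2⟩ := exists_between hx
  have hr0 : 0 ≤ r := (abs_nonneg x).trans hr1.le
  set u : ℕ → ℝ := fun N => δ * ((N : ℝ) * r ^ (N - 1)) with hu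
  have hus : Summable u := by
    apply Summable.mul_left
    rw [← summable_nat_add_iff 1]
    have h := summable_pow_mul_geometric_of_norm_lt_one 1
      (show ‖r‖ < 1 by rwa [Real.norm_eq_abs, abs_of_nonneg hr0])
    have h' := h.add (summable_geometric_of_lt_one hr0 hr2)
    refine h'.congr fun N => ?_
    simp; ring
  have hb : ∀ N, ∀ y ∈ Ioo (-r) r, ‖f N * ((N : ℝ) * y ^ (N - 1))‖ ≤ u N := by
    intro N y hy
    have hy' : |y| ≤ r := (abs_lt.2 hy).le
    simp only [hu, Real.norm_eq_abs, abs_mul, abs_pow, Nat.abs_cast]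
    exact mul_le_mul (hf N) (by gcongr) (by positivity) ((abs_nonneg _).trans (hf 0))
  have hxr : x ∈ Ioo (-r) r := abs_lt.1 hr1
  have hd := hasDerivAt_tsum_of_isPreconnected (g := fun N y => f N * y ^ N)
    (g' := fun N y => f N * ((N : ℝ) * y ^ (N - 1))) hus isOpen_Ioo isPreconnected_Ioo
    (fun N y _ => (hasDerivAt_pow N y).const_mul (f N)) hb hxr
    (summable_norm_ps hf hx).of_norm hxr
  have hs : Summable fun N => f N * ((N : ℝ) * x ^ (N - 1)) :=
    Summable.of_norm_bounded hus (fun N => hb N x hxr)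
  have hs' : HasSum (fun N => dps f N * x ^ N) (∑' N, f N * ((N : ℝ) * x ^ (N - 1))) := by
    have := (hasSum_nat_add_iff' 1).2 hs.hasSum
    simp only [sum_range_one, Nat.cast_zero, zero_mul, mul_zero, sub_zero] at this
    refine this.congr_fun fun N => ?_
    simp [dps]; ring
  have he : ps (dps f) x = ∑' N, f N * ((N : ℝ) * x ^ (N - 1)) := hs'.tsum_eq
  rw [he]
  exact ⟨hd, hs'⟩

lemma contDiffAt_ps (hf : ∀ N, |f N| ≤ δ) (hx : |x| < 1) {n : WithTop ℕ∞} :
    ContDiffAt ℝ n (ps f) x := by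
  set p := FormalMultilinearSeries.ofScalars ℝ f with hp
  have hrad : 1 ≤ p.radius := by
    apply p.le_radius_of_bound δ (r := 1)
    intro N
    simp only [hp, FormalMultilinearSeries.ofScalars_norm, NNReal.coe_one, one_pow, mul_one]
    exact hf N
  have hball := p.hasFPowerSeriesOnBall (lt_of_lt_of_le zero_lt_one hrad)
  have e : ps f = p.sum := by
    funext y
    simp [ps, FormalMultilinearSeries.sum, hp, mul_comm]
  rw [e]
  refine (hball.analyticAt_of_mem ?_).contDiffAt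
  refine Metric.mem_eball.2 (lt_of_lt_of_le ?_ hrad)
  rw [edist_dist, dist_zero_right, Real.norm_eq_abs]
  exact ENNReal.ofReal_lt_one.2 hx

lemma abs_ps_sub_le (hf : ∀ N, |f N| ≤ δ) (hx0 : 0 ≤ x) (hx : x ≤ 1 / 2) :
    |ps f x - f 0| ≤ 2 * δ * x := by
  have h := hasSum_ps hf (show |x| < 1 by rw [abs_of_nonneg hx0]; linarith)
  have h1 := (hasSum_nat_add_iff' 1).2 h
  simp only [sum_range_one, pow_zero, mul_one] at h1
  have hg := ((hasSum_geometric_of_lt_one hx0 (by linarith)).mul_left (δ * x))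
  have hbnd := tsum_of_norm_bounded hg (f := fun N => f (N + 1) * x ^ (N + 1)) fun N => by
    rw [Real.norm_eq_abs, abs_mul, abs_pow, abs_of_nonneg hx0, pow_succ]
    have := hf (N + 1)
    have hp : 0 ≤ x ^ N * x := by positivity
    nlinarith
  rw [h1.tsum_eq, Real.norm_eq_abs] at hbnd
  refine hbnd.trans ?_
  have hδ : 0 ≤ δ := (abs_nonneg _).trans (hf 0)
  rw [← div_eq_mul_inv, div_le_iff₀ (by linarith)]
  nlinarith [mul_nonneg hδ hx0]

section
variable (μ δ : ℝ)

/-- The function `P` near the origin. -/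
noncomputable def sP : ℝ → ℝ := ps fun N => (coeffs μ (δ / 20) N).1
/-- The function `ξ` near the origin. -/
noncomputable def sX : ℝ → ℝ := ps fun N => (coeffs μ (δ / 20) N).2.1
/-- The function `η` near the origin. -/
noncomputable def sH : ℝ → ℝ := ps fun N => (coeffs μ (δ / 20) N).2.2
end

lemma series_ode {μ δ ρ : ℝ} (hμ : 9 ≤ μ) (hδ : 0 < δ) (hδ' : δ * (100 * μ) ≤ 1) (hρ : |ρ| < 1) :
    ∃ P' X' H' : ℝ, HasDerivAt (sP μ δ) P' ρ ∧ HasDerivAt (sX μ δ) X' ρ ∧
      HasDerivAt (sH μ δ) H' ρ ∧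
      2 * P' = sP μ δ ρ * sX μ δ ρ - 2 * (sP μ δ ρ * sP μ δ ρ) ∧
      2 * ρ * X' + (2 + μ) * sX μ δ ρ - 2 * sP μ δ ρ - gam μ * sH μ δ ρ
        = ρ * (2 * (sP μ δ ρ * sX μ δ ρ) - μ * (sX μ δ ρ * sX μ δ ρ)
            + gam μ * (sX μ δ ρ * sH μ δ ρ)) ∧
      2 * ρ * H' + μ * sH μ δ ρ - 2 * (μ + 2) * sP μ δ ρ
        = ρ * (sH μ δ ρ * sH μ δ ρ - (μ - 1) * (sH μ δ ρ * sX μ δ ρ)
            + 2 * (μ + 2) * (sP μ δ ρ * sX μ δ ρ)) := by
  set a : ℕ → ℝ := fun N => (coeffs μ (δ / 20) N).1 with hadef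
  set b : ℕ → ℝ := fun N => (coeffs μ (δ / 20) N).2.1 with hbdef
  set e : ℕ → ℝ := fun N => (coeffs μ (δ / 20) N).2.2 with hedef
  have ha : ∀ N, |a N| ≤ δ := fun N => (coeffs_bound hμ hδ hδ' N).1.trans (by linarith)
  have hb : ∀ N, |b N| ≤ δ := fun N => (coeffs_bound hμ hδ hδ' N).2.1
  have he : ∀ N, |e N| ≤ δ := fun N => (coeffs_bound hμ hδ hδ' N).2.2.trans (by linarith)
  obtain ⟨da, sa⟩ := hasDerivAt_ps ha hρ
  obtain ⟨db, sb⟩ := hasDerivAt_ps hb hρ
  obtain ⟨de, se⟩ := hasDerivAt_ps he hρ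
  refine ⟨_, _, _, da, db, de, ?_, ?_, ?_⟩
  · have lhs := sa.mul_left 2
    have rhs := (hasSum_conv ha hb hρ).sub ((hasSum_conv ha ha hρ).mul_left 2)
    refine lhs.unique (rhs.congr_fun fun N => ?_)
    simp only [hadef, hbdef, dps, coeffs_succ, nextCoeff]
    field_simp
  · have hNb := hasSum_shift (c := fun N => (N : ℝ) * b N) (by simp) (x := ρ)
      (sb.congr_fun fun N => by simp [dps])
    have lhs : HasSum (fun N : ℕ => ((2 * (N : ℝ) + 2 + μ) * b N - 2 * a N - gam μ * e N) * ρ ^ N)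
        (2 * ρ * ps (dps b) ρ + (2 + μ) * sX μ δ ρ - 2 * sP μ δ ρ - gam μ * sH μ δ ρ) := by
      have := (((hNb.mul_left 2).add ((hasSum_ps hb hρ).mul_left (2 + μ))).sub
        ((hasSum_ps ha hρ).mul_left 2)).sub ((hasSum_ps he hρ).mul_left (gam μ))
      rw [mul_assoc 2 ρ]
      exact this.congr_fun fun N => by ring
    refine lhs.unique (hasSum_shift ?_ ?_)
    · simp only [hadef, hbdef, hedef, coeffs, tableCoeff, Nat.cast_zero]
      field_simp; ring
    · have h := (((hasSum_conv ha hb hρ).mul_left 2).sub ((hasSum_conv hb hb hρ).mul_left μ)).add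
        ((hasSum_conv hb he hρ).mul_left (gam μ))
      refine h.congr_fun fun N => ?_
      have hd : 2 * ((N : ℝ) + 1) + 2 + μ ≠ 0 := by positivity
      simp only [hadef, hbdef, hedef, coeffs_succ, nextCoeff, Nat.cast_add, Nat.cast_one]
      field_simp
      ring
  · have hNe := hasSum_shift (c := fun N => (N : ℝ) * e N) (by simp) (x := ρ)
      (se.congr_fun fun N => by simp [dps])
    have lhs : HasSum (fun N : ℕ => ((2 * (N : ℝ) + μ) * e N - 2 * (μ + 2) * a N) * ρ ^ N)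
        (2 * ρ * ps (dps e) ρ + μ * sH μ δ ρ - 2 * (μ + 2) * sP μ δ ρ) := by
      have := ((hNe.mul_left 2).add ((hasSum_ps he hρ).mul_left μ)).sub
        ((hasSum_ps ha hρ).mul_left (2 * (μ + 2)))
      rw [mul_assoc 2 ρ]
      exact this.congr_fun fun N => by ring
    refine lhs.unique (hasSum_shift ?_ ?_)
    · simp only [hadef, hedef, coeffs, tableCoeff, Nat.cast_zero]
      field_simp; ring
    · have h := ((hasSum_conv he he hρ).sub ((hasSum_conv he hb hρ).mul_left (μ - 1))).add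
        ((hasSum_conv ha hb hρ).mul_left (2 * (μ + 2)))
      refine h.congr_fun fun N => ?_
      have hd : 2 * ((N : ℝ) + 1) + μ ≠ 0 := by positivity
      simp only [hadef, hbdef, hedef, coeffs_succ, nextCoeff, Nat.cast_add, Nat.cast_one]
      field_simp
      ring

end Vale.Agent.P252
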