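import Mathlib
import Vale.Agent.P252.Flow
import Vale.Agent.P252.Series

/-! The global radial profile, regular at the origin. -/

namespace Vale.Agent.P252

open Set Filter Topology

/-- Properties of the profile functions used in the final computation. -/
structure Profile (μ : ℝ) where
  P : ℝ → ℝ
  ξ : ℝ → ℝ
  η : ℝ → ℝ
  smoothP : ∀ ρ, -1 < ρ → ContDiffAt ℝ (↑(⊤ : ℕ∞)) P ρ
  smoothX : ∀ ρ, -1 < ρ → ContDiffAt ℝ (↑(⊤ : ℕ∞)) ξ ρ
  smoothH : ∀ ρ, -1 < ρ → ContDiffAt ℝ (↑(⊤ : ℕ∞)) η ρ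
  P_pos : ∀ ρ, 0 ≤ ρ → 0 < P ρ
  j_pos : ∀ ρ, 0 ≤ ρ → 0 < 1 + ρ * ξ ρ
  eqP : ∀ ρ, 0 ≤ ρ → HasDerivAt P (P ρ * (ξ ρ - 2 * P ρ) / 2) ρ
  eqX : ∀ ρ, 0 ≤ ρ → ∃ X' : ℝ, HasDerivAt ξ X' ρ ∧
    2 * ρ * X' + 2 * ξ ρ = (1 + ρ * ξ ρ) * (2 * P ρ - μ * ξ ρ + gam μ * η ρ)
  eqH : ∀ ρ, 0 ≤ ρ → ∃ H' : ℝ, HasDerivAt η H' ρ ∧
    2 * ρ * H' + 2 * η ρ = η ρ * (1 + ρ * η ρ - (μ - 1) * (1 + ρ * ξ ρ))
      + 2 * (μ + 2) * P ρ * (1 + ρ * ξ ρ)

lemma deriv_out {μ : ℝ} {y : ℝ → ℝ × ℝ × ℝ} {ρ : ℝ} (hρ : 0 < ρ)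
    (hy : HasDerivAt y (fld μ (y (Real.log ρ / 2))) (Real.log ρ / 2)) :
    let p := y (Real.log ρ / 2)
    HasDerivAt (fun s => (y (Real.log s / 2)).1 / (2 * s))
      (p.1 / (2 * ρ) * (p.2.1 / ρ - 2 * (p.1 / (2 * ρ))) / 2) ρ ∧
    HasDerivAt (fun s => (y (Real.log s / 2)).2.2 / s)
      ((fld μ p).2.2 / (2 * ρ ^ 2) - p.2.2 / ρ ^ 2) ρ ∧
    HasDerivAt (fun s => (y (Real.log s / 2)).2.1 / s)
      ((fld μ p).2.1 / (2 * ρ ^ 2) - p.2.1 / ρ ^ 2) ρ := by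
  intro p
  have d : HasDerivAt (fun s => y (Real.log s / 2)) ((ρ⁻¹ / 2) • fld μ p) ρ :=
    hy.scomp ρ ((Real.hasDerivAt_log hρ.ne').div_const 2)
  have d1 : HasDerivAt (fun s => (y (Real.log s / 2)).1) (ρ⁻¹ / 2 * (fld μ p).1) ρ :=
    by simpa [Function.comp_def] using (hasFDerivAt_fst (𝕜 := ℝ) (E := ℝ) (F := ℝ × ℝ) (p := p)).comp_hasDerivAt ρ d
  have d23 : HasDerivAt (fun s => (y (Real.log s / 2)).2) ((ρ⁻¹ / 2) • (fld μ p).2) ρ :=
    by simpa [Function.comp_def] using (hasFDerivAt_snd (𝕜 := ℝ) (E := ℝ) (F := ℝ × ℝ) (p := p)).comp_hasDerivAt ρ d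
  have d2 : HasDerivAt (fun s => (y (Real.log s / 2)).2.1) (ρ⁻¹ / 2 * (fld μ p).2.1) ρ :=
    by simpa [Function.comp_def] using (hasFDerivAt_fst (𝕜 := ℝ) (E := ℝ) (F := ℝ) (p := p.2)).comp_hasDerivAt ρ d23
  have d3 : HasDerivAt (fun s => (y (Real.log s / 2)).2.2) (ρ⁻¹ / 2 * (fld μ p).2.2) ρ :=
    by simpa [Function.comp_def] using (hasFDerivAt_snd (𝕜 := ℝ) (E := ℝ) (F := ℝ) (p := p.2)).comp_hasDerivAt ρ d23
  refine ⟨?_, ?_, ?_⟩
  · refine (d1.fun_div ((hasDerivAt_id' ρ).const_mul 2) (by linarith)).congr_deriv ?_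
    show _ = _
    simp only [fld, p]
    field_simp
    ring
  · refine (d3.fun_div (hasDerivAt_id' ρ) hρ.ne').congr_deriv ?_
    show _ = _
    field_simp
    ring
  · refine (d2.fun_div (hasDerivAt_id' ρ) hρ.ne').congr_deriv ?_
    show _ = _
    field_simp
    ring

lemma exists_profile {μ : ℝ} (hμ : 9 ≤ μ) : Nonempty (Profile μ) := by
  obtain ⟨T⟩ := exists_trap hμ
  have hXp := T.X_pos
  have hcp := T.c_pos
  have hH0 := T.H0_pos
  obtain ⟨δ, hδ, hδ', hδX, hδH⟩ : ∃ δ : ℝ, 0 < δ ∧ δ * (100 * μ) ≤ 1 ∧ δ ≤ T.X ∧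
      δ ≤ T.H - T.c * T.X := by
    refine ⟨min (1 / (100 * μ)) (min T.X (T.H - T.c * T.X)), by positivity, ?_, ?_, ?_⟩
    · have h := min_le_left (1 / (100 * μ)) (min T.X (T.H - T.c * T.X))
      rw [le_div_iff₀ (by linarith)] at h
      exact h
    · exact (min_le_right _ _).trans (min_le_left _ _)
    · exact (min_le_right _ _).trans (min_le_right _ _)
  set r₁ : ℝ := 1 / (200 * (μ + 3)) with hr₁
  have hr₁p : 0 < r₁ := by positivity
  have hr₁s : r₁ * (200 * (μ + 3)) = 1 := by rw [hr₁]; field_simp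
  have hr₁2 : r₁ ≤ 1 / 2400 := by nlinarith
  have hg1 := one_lt_gam hμ
  have hb := fun N => coeffs_bound hμ hδ hδ' N
  have hA : ∀ N, |(coeffs μ (δ / 20) N).1| ≤ δ / 20 := fun N => (hb N).1
  have hB : ∀ N, |(coeffs μ (δ / 20) N).2.1| ≤ δ := fun N => (hb N).2.1
  have hC : ∀ N, |(coeffs μ (δ / 20) N).2.2| ≤ δ / 4 := fun N => (hb N).2.2
  -- estimates near the origin
  have est : ∀ ρ, 0 ≤ ρ → ρ ≤ r₁ →
      δ / 40 ≤ sP μ δ ρ ∧ sP μ δ ρ ≤ δ ∧ 0 < sX μ δ ρ ∧ sX μ δ ρ ≤ 3 * δ ∧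
        0 < sH μ δ ρ ∧ sH μ δ ρ ≤ δ := by
    intro ρ h0 h1
    have hρ : ρ ≤ 1 / 2 := by linarith
    have a1 := abs_le.1 (abs_ps_sub_le hA h0 hρ)
    have b1 := abs_le.1 (abs_ps_sub_le hB h0 hρ)
    have c1 := abs_le.1 (abs_ps_sub_le hC h0 hρ)
    have a0 : (coeffs μ (δ / 20) 0).1 = δ / 20 := rfl
    have e0 : (coeffs μ (δ / 20) 0).2.2 = 2 * (μ + 2) * (δ / 20) / μ := rfl
    have b0 : (coeffs μ (δ / 20) 0).2.1
        = (2 * (δ / 20) + gam μ * (2 * (μ + 2) * (δ / 20) / μ)) / (2 + μ) := rfl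
    have e0' : δ / 10 ≤ (coeffs μ (δ / 20) 0).2.2 := by
      rw [e0, le_div_iff₀ (by linarith)]; nlinarith
    have b0' : δ / (10 * (μ + 2)) ≤ (coeffs μ (δ / 20) 0).2.1 := by
      rw [b0, div_le_div_iff₀ (by linarith) (by linarith)]
      have : 0 ≤ gam μ * (2 * (μ + 2) * (δ / 20) / μ) := by unfold gam; positivity
      nlinarith
    have hsmall : 2 * δ * ρ < δ / (10 * (μ + 2)) := by
      rw [lt_div_iff₀ (by linarith)]
      nlinarith [mul_le_mul_of_nonneg_left h1 hδ.le]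
    have := abs_le.1 (hB 0)
    have := abs_le.1 (hC 0)
    have hδρ : δ * ρ ≤ δ * (1 / 2400) := mul_le_mul_of_nonneg_left (by linarith) hδ.le
    simp only [sP, sX, sH]
    refine ⟨?_, ?_, ?_, ?_, ?_, ?_⟩ <;> linarith
  set t₀ : ℝ := Real.log r₁ / 2 with ht₀
  have he0 : Real.exp (2 * t₀) = r₁ := by
    rw [ht₀, mul_div_cancel₀ _ (two_ne_zero' ℝ), Real.exp_log hr₁p]
  set z : ℝ → ℝ × ℝ × ℝ := fun t => (2 * Real.exp (2 * t) * sP μ δ (Real.exp (2 * t)),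
    Real.exp (2 * t) * sX μ δ (Real.exp (2 * t)),
    Real.exp (2 * t) * sH μ δ (Real.exp (2 * t))) with hz
  have hzd : ∀ t, t < 0 → HasDerivAt z (fld μ (z t)) t := by
    intro t ht
    have hlt : |Real.exp (2 * t)| < 1 := by
      rw [abs_of_pos (Real.exp_pos _)]; exact Real.exp_lt_one_iff.2 (by linarith)
    obtain ⟨P', X', H', dP, dX, dH, q1, q2, q3⟩ := series_ode hμ hδ hδ' hlt
    have he : HasDerivAt (fun t => Real.exp (2 * t)) (Real.exp (2 * t) * 2) t := by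
      simpa using ((hasDerivAt_id t).const_mul 2).exp
    have d1 := (he.const_mul 2).fun_mul (dP.comp t he)
    have d2 := he.fun_mul (dX.comp t he)
    have d3 := he.fun_mul (dH.comp t he)
    refine (d1.prodMk (d2.prodMk d3)).congr_deriv ?_
    simp only [hz, fld, Function.comp_apply]
    generalize Real.exp (2 * t) = r at *
    refine Prod.ext ?_ (Prod.ext ?_ ?_) <;> dsimp only
    · linear_combination (2 * r ^ 2) * q1
    · linear_combination r * q2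
    · linear_combination r * q3
  have hzin : ∀ t ≤ t₀, z t ∈ T.region := by
    intro t ht
    have hp := Real.exp_pos (2 * t)
    have hle : Real.exp (2 * t) ≤ r₁ := he0 ▸ Real.exp_le_exp.2 (by linarith)
    obtain ⟨p1, p2, x1, x2, h1, h2⟩ := est _ hp.le hle
    simp only [hz, Trap.region, mem_ofPred_eq]
    set r := Real.exp (2 * t)
    have hr : r ≤ 1 / 2400 := hle.trans hr₁2
    have e1 : r * sX μ δ r ≤ (1 / 2400) * (3 * δ) := mul_le_mul hr x2 x1.le (by norm_num)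
    have e2 : r * sP μ δ r ≤ (1 / 2400) * δ := mul_le_mul hr p2 (by linarith) (by norm_num)
    have e3 : r * sH μ δ r ≤ (1 / 2400) * δ := mul_le_mul hr h2 h1.le (by norm_num)
    have p0 : 0 < sP μ δ r := by linarith
    refine ⟨by positivity, by nlinarith, by positivity, by linarith, by positivity, ?_⟩
    nlinarith [mul_pos hcp (mul_pos hp x1)]
  have ht0neg : t₀ < 0 := by
    rw [ht₀]; linarith [Real.log_neg hr₁p (by linarith)]
  obtain ⟨y, hy, hyin, hyz⟩ := exists_trajectory hμ T ht0neg hzd hzin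
  let tm : ℝ → ℝ := fun ρ => Real.log ρ / 2
  let oP : ℝ → ℝ := fun ρ => (y (tm ρ)).1 / (2 * ρ)
  let oX : ℝ → ℝ := fun ρ => (y (tm ρ)).2.1 / ρ
  let oH : ℝ → ℝ := fun ρ => (y (tm ρ)).2.2 / ρ
  have agree : ∀ ρ, 0 < ρ → ρ ≤ r₁ → oP ρ = sP μ δ ρ ∧ oX ρ = sX μ δ ρ ∧ oH ρ = sH μ δ ρ := by
    intro ρ h0 h1
    have e : Real.exp (2 * tm ρ) = ρ := by
      simp only [tm]; rw [mul_div_cancel₀ _ (two_ne_zero' ℝ), Real.exp_log h0]
    have hle : tm ρ ≤ t₀ := by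
      simp only [tm, ht₀]; gcongr
    simp only [oP, oX, oH, hyz _ hle, hz, e]
    refine ⟨?_, ?_, ?_⟩ <;> field_simp
  let P : ℝ → ℝ := fun ρ => if ρ < r₁ / 2 then sP μ δ ρ else oP ρ
  let ξ : ℝ → ℝ := fun ρ => if ρ < r₁ / 2 then sX μ δ ρ else oX ρ
  let η : ℝ → ℝ := fun ρ => if ρ < r₁ / 2 then sH μ δ ρ else oH ρ
  have evs : ∀ ρ, ρ < r₁ → P =ᶠ[𝓝 ρ] sP μ δ ∧ ξ =ᶠ[𝓝 ρ] sX μ δ ∧ η =ᶠ[𝓝 ρ] sH μ δ := by
    intro ρ h
    refine ⟨?_, ?_, ?_⟩ <;>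
      (filter_upwards [Iio_mem_nhds h] with s hs
       simp only [P, ξ, η]
       split_ifs with hh
       · rfl
       · obtain ⟨a, b, c⟩ := agree s (by linarith [not_lt.1 hh]) (le_of_lt hs)
         assumption)
  have evo : ∀ ρ, r₁ / 2 < ρ → P =ᶠ[𝓝 ρ] oP ∧ ξ =ᶠ[𝓝 ρ] oX ∧ η =ᶠ[𝓝 ρ] oH := by
    intro ρ h
    refine ⟨?_, ?_, ?_⟩ <;>
      (filter_upwards [Ioi_mem_nhds h] with s hs
       simp only [P, ξ, η, if_neg (not_lt.2 (le_of_lt (mem_Ioi.1 hs)))])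
  have hysm : ∀ t, ContDiffAt ℝ (↑(⊤ : ℕ∞)) y t :=
    fun t => contDiffAt_of_trajectory isOpen_univ (fun s _ => hy s) (mem_univ t)
  have smo : ∀ ρ, 0 < ρ → ContDiffAt ℝ (↑(⊤ : ℕ∞)) (fun s => y (tm s)) ρ := fun ρ h =>
    (hysm _).comp ρ ((Real.contDiffAt_log.2 h.ne').div_const 2)
  have hlt1 : ∀ ρ, -1 < ρ → ρ < r₁ → |ρ| < 1 := fun ρ h h' => abs_lt.2 ⟨h, by linarith⟩
  refine ⟨⟨P, ξ, η, ?_, ?_, ?_, ?_, ?_, ?_, ?_, ?_⟩⟩
  · intro ρ h
    rcases lt_or_ge ρ r₁ with h' | h'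
    · exact (contDiffAt_ps hA (hlt1 ρ h h')).congr_of_eventuallyEq (evs ρ h').1
    · exact ((smo ρ (by linarith)).fst.div (contDiffAt_const.mul contDiffAt_id)
        (by simp; linarith)).congr_of_eventuallyEq (evo ρ (by linarith)).1
  · intro ρ h
    rcases lt_or_ge ρ r₁ with h' | h'
    · exact (contDiffAt_ps hB (hlt1 ρ h h')).congr_of_eventuallyEq (evs ρ h').2.1
    · exact ((smo ρ (by linarith)).snd.fst.div contDiffAt_id
        (by simp; linarith)).congr_of_eventuallyEq (evo ρ (by linarith)).2.1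
  · intro ρ h
    rcases lt_or_ge ρ r₁ with h' | h'
    · exact (contDiffAt_ps hC (hlt1 ρ h h')).congr_of_eventuallyEq (evs ρ h').2.2
    · exact ((smo ρ (by linarith)).snd.snd.div contDiffAt_id
        (by simp; linarith)).congr_of_eventuallyEq (evo ρ (by linarith)).2.2
  · intro ρ h
    rcases lt_or_ge ρ r₁ with h' | h'
    · rw [(evs ρ h').1.eq_of_nhds]; linarith [(est ρ h h'.le).1]
    · rw [(evo ρ (by linarith)).1.eq_of_nhds]
      exact div_pos (hyin _).1 (by linarith)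
  · intro ρ h
    rcases lt_or_ge ρ r₁ with h' | h'
    · rw [(evs ρ h').2.1.eq_of_nhds]
      nlinarith [mul_nonneg h (est ρ h h'.le).2.2.1.le]
    · rw [(evo ρ (by linarith)).2.1.eq_of_nhds]
      have : 0 < ρ := by linarith
      simp only [oX]
      rw [mul_div_cancel₀ _ this.ne']
      linarith [(hyin (tm ρ)).2.2.1]
  · intro ρ h
    rcases lt_or_ge ρ r₁ with h' | h'
    · obtain ⟨P', X', H', dP, -, -, q1, -, -⟩ := series_ode hμ hδ hδ' (hlt1 ρ (by linarith) h')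
      refine HasDerivAt.congr_of_eventuallyEq ?_ (evs ρ h').1
      rw [(evs ρ h').1.eq_of_nhds, (evs ρ h').2.1.eq_of_nhds]
      exact dP.congr_deriv (by linarith)
    · have hp : 0 < ρ := by linarith
      refine HasDerivAt.congr_of_eventuallyEq ?_ (evo ρ (by linarith)).1
      rw [(evo ρ (by linarith)).1.eq_of_nhds, (evo ρ (by linarith)).2.1.eq_of_nhds]
      exact (deriv_out hp (hy _)).1
  · intro ρ h
    rcases lt_or_ge ρ r₁ with h' | h'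
    · obtain ⟨P', X', H', -, dX, -, -, q2, -⟩ := series_ode hμ hδ hδ' (hlt1 ρ (by linarith) h')
      refine ⟨X', dX.congr_of_eventuallyEq (evs ρ h').2.1, ?_⟩
      rw [(evs ρ h').1.eq_of_nhds, (evs ρ h').2.1.eq_of_nhds, (evs ρ h').2.2.eq_of_nhds]
      linear_combination q2
    · have hp : 0 < ρ := by linarith
      obtain ⟨-, -, d⟩ := deriv_out hp (hy (tm ρ))
      refine ⟨_, d.congr_of_eventuallyEq (evo ρ (by linarith)).2.1, ?_⟩
      rw [(evo ρ (by linarith)).1.eq_of_nhds, (evo ρ (by linarith)).2.1.eq_of_nhds,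
        (evo ρ (by linarith)).2.2.eq_of_nhds]
      simp only [oP, oX, oH, fld, tm]
      field_simp
      ring
  · intro ρ h
    rcases lt_or_ge ρ r₁ with h' | h'
    · obtain ⟨P', X', H', -, -, dH, -, -, q3⟩ := series_ode hμ hδ hδ' (hlt1 ρ (by linarith) h')
      refine ⟨H', dH.congr_of_eventuallyEq (evs ρ h').2.2, ?_⟩
      rw [(evs ρ h').1.eq_of_nhds, (evs ρ h').2.1.eq_of_nhds, (evs ρ h').2.2.eq_of_nhds]
      linear_combination q3
    · have hp : 0 < ρ := by linarith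
      obtain ⟨-, d, -⟩ := deriv_out hp (hy (tm ρ))
      refine ⟨_, d.congr_of_eventuallyEq (evo ρ (by linarith)).2.2, ?_⟩
      rw [(evo ρ (by linarith)).1.eq_of_nhds, (evo ρ (by linarith)).2.1.eq_of_nhds,
        (evo ρ (by linarith)).2.2.eq_of_nhds]
      simp only [oP, oX, oH, fld, tm]
      field_simp
      ring

end Vale.Agent.P252
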