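import Mathlib
import Vale.Agent.P252.Profile

/-! Functions of `ρ = |x|²` derived from the profile. -/

namespace Vale.Agent.P252

open Set Filter Topology

namespace Profile

variable {μ : ℝ} (Q : Profile μ)

/-- The antiderivative of `P`. -/
noncomputable def Φ (ρ : ℝ) : ℝ := ∫ s in (0 : ℝ)..ρ, Q.P s

/-- `s(r)²` at `ρ = r²`. -/
noncomputable def ψ (ρ : ℝ) : ℝ := Real.exp (2 * Q.Φ ρ)

/-- First derivative of `ψ`. -/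
noncomputable def ψ₁ (ρ : ℝ) : ℝ := 2 * Q.P ρ * Q.ψ ρ

/-- Second derivative of `ψ`. -/
noncomputable def ψ₂ (ρ : ℝ) : ℝ := Q.ψ ρ * Q.P ρ * (Q.ξ ρ + 2 * Q.P ρ)

lemma hasDerivAt_Φ {ρ : ℝ} (h : -1 < ρ) : HasDerivAt Q.Φ (Q.P ρ) ρ := by
  have hc : ContinuousOn Q.P (Ioi (-1)) :=
    fun s hs => (Q.smoothP s hs).continuousAt.continuousWithinAt
  have hsub : uIcc 0 ρ ⊆ Ioi (-1) := by
    intro s hs
    rcases le_total 0 ρ with h0 | h0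
    · rw [uIcc_of_le h0] at hs; simp only [mem_Ioi]; linarith [hs.1]
    · rw [uIcc_of_ge h0] at hs; simp only [mem_Ioi]; linarith [hs.1]
  exact intervalIntegral.integral_hasDerivAt_right ((hc.mono hsub).intervalIntegrable)
    (hc.stronglyMeasurableAtFilter isOpen_Ioi ρ h) (Q.smoothP ρ h).continuousAt

lemma contDiffAt_Φ {ρ : ℝ} (h : -1 < ρ) : ContDiffAt ℝ (↑(⊤ : ℕ∞)) Q.Φ ρ := by
  have hs : ContDiffOn ℝ (↑(⊤ : ℕ∞)) Q.Φ (Ioi (-1)) := by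
    rw [contDiffOn_infty_iff_deriv_of_isOpen isOpen_Ioi]
    refine ⟨fun s hs => (Q.hasDerivAt_Φ hs).differentiableAt.differentiableWithinAt, ?_⟩
    have h' : ContDiffOn ℝ (↑(⊤ : ℕ∞)) Q.P (Ioi (-1)) :=
      fun s hs => (Q.smoothP s hs).contDiffWithinAt
    exact h'.congr fun s hs => (Q.hasDerivAt_Φ hs).deriv
  exact hs.contDiffAt (Ioi_mem_nhds h)

lemma contDiffAt_ψ {ρ : ℝ} (h : -1 < ρ) : ContDiffAt ℝ (↑(⊤ : ℕ∞)) Q.ψ ρ :=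
  (contDiffAt_const.mul (Q.contDiffAt_Φ h)).exp

lemma ψ_pos (ρ : ℝ) : 0 < Q.ψ ρ := Real.exp_pos _

lemma ψ₁_pos {ρ : ℝ} (h : 0 ≤ ρ) : 0 < Q.ψ₁ ρ :=
  mul_pos (mul_pos two_pos (Q.P_pos ρ h)) (Q.ψ_pos ρ)

lemma hasDerivAt_ψ {ρ : ℝ} (h : 0 ≤ ρ) : HasDerivAt Q.ψ (Q.ψ₁ ρ) ρ :=
  (((Q.hasDerivAt_Φ (by linarith)).const_mul 2).exp).congr_deriv (by unfold ψ₁ ψ; ring)

lemma hasDerivAt_ψ₁ {ρ : ℝ} (h : 0 ≤ ρ) : HasDerivAt Q.ψ₁ (Q.ψ₂ ρ) ρ :=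
  (((Q.eqP ρ h).const_mul 2).fun_mul (Q.hasDerivAt_ψ h)).congr_deriv
    (by unfold ψ₂ ψ₁; ring)

/-- The exponent `(μ + 2)/(μ + 3) = (n + 1)/(n + 2)`. -/
noncomputable def bet (_Q : Profile μ) : ℝ := (μ + 2) / (μ + 3)

/-- The logarithmic derivative of `F`. -/
noncomputable def l (ρ : ℝ) : ℝ := -Q.η ρ / 2 - (μ + 2) * Q.P ρ

end Profile

/-- `D(ρ)`, the determinant of the Hessian times `u ^ (m + 3)`. -/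
noncomputable def Profile.D {m : ℕ} (Q : Profile (m : ℝ)) (ρ : ℝ) : ℝ :=
  (2 * Q.P ρ) ^ m * Q.ψ ρ ^ (m + 1) * (1 + ρ * Q.ξ ρ)

/-- `F = D ^ (-β)`. -/
noncomputable def Profile.F {m : ℕ} (Q : Profile (m : ℝ)) (ρ : ℝ) : ℝ := Q.D ρ ^ (-Q.bet)

/-- First derivative of `F`. -/
noncomputable def Profile.F₁ {m : ℕ} (Q : Profile (m : ℝ)) (ρ : ℝ) : ℝ := Q.l ρ * Q.F ρ

namespace Profile

variable {m : ℕ} (Q : Profile (m : ℝ))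

lemma D_pos {ρ : ℝ} (h : 0 ≤ ρ) : 0 < Q.D ρ := by
  have := Q.P_pos ρ h
  have := Q.j_pos ρ h
  have := Q.ψ_pos ρ
  unfold D; positivity

lemma contDiffAt_F {ρ : ℝ} (h : 0 ≤ ρ) : ContDiffAt ℝ (↑(⊤ : ℕ∞)) Q.F ρ := by
  have h' : -1 < ρ := by linarith
  exact ((((contDiffAt_const.mul (Q.smoothP ρ h')).pow m).mul ((Q.contDiffAt_ψ h').pow (m + 1))).mul
    (contDiffAt_const.add (contDiffAt_id.mul (Q.smoothX ρ h')))).rpow_const_of_ne (Q.D_pos h).ne'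

lemma hasDerivAt_F {ρ : ℝ} (h : 0 ≤ ρ) : HasDerivAt Q.F (Q.F₁ ρ) ρ := by
  obtain ⟨X', dX, eX⟩ := Q.eqX ρ h
  have hj : HasDerivAt (fun s => 1 + s * Q.ξ s)
      ((1 + ρ * Q.ξ ρ) * (2 * Q.P ρ - (m : ℝ) * Q.ξ ρ + gam (m : ℝ) * Q.η ρ) / 2) ρ :=
    (((hasDerivAt_id' ρ).fun_mul dX).const_add 1).congr_deriv (by linarith)
  have hlog : HasDerivAt Q.D (Q.D ρ * ((m : ℝ) * ((Q.ξ ρ - 2 * Q.P ρ) / 2)
      + 2 * ((m : ℝ) + 1) * Q.P ρ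
      + (2 * Q.P ρ - (m : ℝ) * Q.ξ ρ + gam (m : ℝ) * Q.η ρ) / 2)) ρ := by
    have d1 := ((Q.eqP ρ h).const_mul 2).fun_pow m
    have d2 := (Q.hasDerivAt_ψ h).fun_pow (m + 1)
    refine ((d1.fun_mul d2).fun_mul hj).congr_deriv ?_
    rcases Nat.eq_zero_or_pos m with hm | hm
    · subst hm; simp [D, ψ₁]; ring
    · obtain ⟨k, rfl⟩ : ∃ k, m = k + 1 := ⟨m - 1, by omega⟩
      simp only [D, ψ₁, Nat.add_sub_cancel, Nat.cast_add, Nat.cast_one, pow_succ]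
      ring
  refine (hlog.rpow_const (p := -Q.bet) (Or.inl (Q.D_pos h).ne')).congr_deriv ?_
  rw [Real.rpow_sub_one (Q.D_pos h).ne']
  have := (Q.D_pos h).ne'
  simp only [F₁, F, l, bet, gam]
  field_simp
  ring

lemma hasDerivAt_F₁ {ρ : ℝ} (h : 0 ≤ ρ) : ∃ F'' : ℝ, HasDerivAt Q.F₁ F'' ρ ∧
    4 * ρ * Q.ψ ρ * F'' + 2 * Q.F₁ ρ * (((m : ℝ) - 1) * (1 + ρ * Q.ξ ρ) * Q.ψ ρ + Q.ψ ρ
        + 2 * ((m : ℝ) + 2) * ρ * Q.ψ₁ ρ)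
      + ((m : ℝ) + 2) * ((m : ℝ) + 1) * (Q.ψ₁ ρ + 2 * ρ * Q.ψ₂ ρ) * Q.F ρ = 0 := by
  obtain ⟨H', dH, eH⟩ := Q.eqH ρ h
  have dl := (dH.fun_neg.div_const 2).fun_sub ((Q.eqP ρ h).const_mul ((m : ℝ) + 2))
  refine ⟨_, dl.fun_mul (Q.hasDerivAt_F h), ?_⟩
  simp only [F₁, l, ψ₁, ψ₂]
  linear_combination (-(Q.ψ ρ) * Q.F ρ) * eH

end Profile

end Vale.Agent.P252
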