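import Mathlib
import Vale.Agent.P252.Defs
import Vale.Agent.P252.Matrices
import Vale.Agent.P252.Radial

/-! The function `u(x, z) = √(z² + ψ(|x|²))` solves the affine maximal equation. -/

namespace Vale.Agent.P252

open Matrix Finset Topology

lemma hessian_eq_of_partial {n : ℕ} {f : EuclideanSpace ℝ (Fin n) → ℝ}
    (hf : ContDiff ℝ (↑(⊤ : ℕ∞)) f) {g : Fin n → EuclideanSpace ℝ (Fin n) → ℝ}
    (hg : ∀ y j, HasDerivAt (fun t : ℝ => f (y + t • EuclideanSpace.single j 1)) (g j y) 0)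
    {x : EuclideanSpace ℝ (Fin n)} {i j : Fin n} {h : ℝ}
    (hh : HasDerivAt (fun t : ℝ => g j (x + t • EuclideanSpace.single i 1)) h 0) :
    hessian f x i j = h := by
  have hd : Differentiable ℝ f := hf.differentiable (by norm_num)
  have e1 : g j = fun y => fderiv ℝ f y (EuclideanSpace.single j 1) := by
    funext y
    exact (hg y j).unique ((hd y).hasFDerivAt.hasLineDerivAt (EuclideanSpace.single j 1))
  have hd2 : DifferentiableAt ℝ (fderiv ℝ f) x :=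
    ((hf.fderiv_right (m := (↑(⊤ : ℕ∞))) le_rfl).differentiable (by norm_num)) x
  rw [e1] at hh
  have h2 := (hd2.hasFDerivAt.clm_apply (hasFDerivAt_const (EuclideanSpace.single j 1 :
    EuclideanSpace ℝ (Fin n)) x)).hasLineDerivAt (EuclideanSpace.single i 1)
  have := hh.unique h2
  simp [hessian, this]

variable {m : ℕ}

/-- The projection to the first `m` coordinates. -/
def pp (y : EuclideanSpace ℝ (Fin (m + 1))) : Fin (m + 1) → ℝ := fun i => pv m i * y i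

/-- The last coordinate. -/
def zz (y : EuclideanSpace ℝ (Fin (m + 1))) : ℝ := y (Fin.last m)

/-- `ρ = |x|²`. -/
def rr (y : EuclideanSpace ℝ (Fin (m + 1))) : ℝ := pp y ⬝ᵥ pp y

lemma rr_nonneg (y : EuclideanSpace ℝ (Fin (m + 1))) : 0 ≤ rr y :=
  show 0 ≤ ∑ i, pp y i * pp y i from Finset.sum_nonneg fun i _ => mul_self_nonneg (pp y i)

lemma diag_pp (y : EuclideanSpace ℝ (Fin (m + 1))) : diagonal (pv m) *ᵥ pp y = pp y := by
  funext i; rw [mulVec_diagonal, pp, ← mul_assoc, pv_mul_self]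

lemma contDiff_rr : ContDiff ℝ (↑(⊤ : ℕ∞)) (rr (m := m)) := by
  unfold rr pp dotProduct
  fun_prop

lemma contDiff_zz : ContDiff ℝ (↑(⊤ : ℕ∞)) (zz (m := m)) := by
  unfold zz
  fun_prop

lemma hasDerivAt_coord (y : EuclideanSpace ℝ (Fin (m + 1))) (i j : Fin (m + 1)) :
    HasDerivAt (fun t : ℝ => (y + t • EuclideanSpace.single i (1 : ℝ)) j)
      (if j = i then 1 else 0) 0 := by
  simpa using ((hasDerivAt_id (0 : ℝ)).mul_const (if j = i then (1:ℝ) else 0)).const_add (y j)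

lemma hasDerivAt_pp (y : EuclideanSpace ℝ (Fin (m + 1))) (i j : Fin (m + 1)) :
    HasDerivAt (fun t : ℝ => pp (y + t • EuclideanSpace.single i (1 : ℝ)) j)
      (pv m j * if j = i then 1 else 0) 0 :=
  (hasDerivAt_coord y i j).const_mul _

lemma hasDerivAt_zz (y : EuclideanSpace ℝ (Fin (m + 1))) (i : Fin (m + 1)) :
    HasDerivAt (fun t : ℝ => zz (y + t • EuclideanSpace.single i (1 : ℝ))) (ev m i) 0 := by
  refine (hasDerivAt_coord y i (Fin.last m)).congr_deriv ?_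
  simp [ev, eq_comm]

lemma hasDerivAt_rr (y : EuclideanSpace ℝ (Fin (m + 1))) (i : Fin (m + 1)) :
    HasDerivAt (fun t : ℝ => rr (y + t • EuclideanSpace.single i (1 : ℝ))) (2 * pp y i) 0 := by
  have h := HasDerivAt.fun_sum (u := univ) fun k _ =>
    (hasDerivAt_pp y i k).fun_mul (hasDerivAt_pp y i k)
  refine h.congr_deriv ?_
  simp only [zero_smul, add_zero, pp, mul_ite, mul_one, mul_zero, ite_mul, zero_mul,
    Finset.sum_add_distrib, Finset.sum_ite_eq', mem_univ, if_true]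
  linear_combination (2 * y i) * pv_mul_self i

lemma hasDerivAt_comp_rr {φ : ℝ → ℝ} {φ' : ℝ} {y : EuclideanSpace ℝ (Fin (m + 1))}
    (h : HasDerivAt φ φ' (rr y)) (i : Fin (m + 1)) :
    HasDerivAt (fun t : ℝ => φ (rr (y + t • EuclideanSpace.single i (1 : ℝ))))
      (φ' * (2 * pp y i)) 0 :=
  h.comp_of_eq 0 (hasDerivAt_rr y i) (by simp)

variable (Q : Profile (m : ℝ))

/-- The solution. -/
noncomputable def uu (y : EuclideanSpace ℝ (Fin (m + 1))) : ℝ :=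
  Real.sqrt (zz y ^ 2 + Q.ψ (rr y))

lemma uu_arg_pos (y : EuclideanSpace ℝ (Fin (m + 1))) : 0 < zz y ^ 2 + Q.ψ (rr y) := by
  have := Q.ψ_pos (rr y); positivity

lemma uu_pos (y : EuclideanSpace ℝ (Fin (m + 1))) : 0 < uu Q y := Real.sqrt_pos.2 (uu_arg_pos Q y)

lemma uu_sq (y : EuclideanSpace ℝ (Fin (m + 1))) : uu Q y ^ 2 = zz y ^ 2 + Q.ψ (rr y) :=
  Real.sq_sqrt (uu_arg_pos Q y).le

lemma contDiff_uu : ContDiff ℝ (↑(⊤ : ℕ∞)) (uu Q) := by
  rw [contDiff_iff_contDiffAt]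
  intro y
  exact (Real.contDiffAt_sqrt (uu_arg_pos Q y).ne').comp y
    (((contDiff_zz.contDiffAt).pow 2).add
      ((Q.contDiffAt_ψ (by linarith [rr_nonneg y])).comp y contDiff_rr.contDiffAt))

/-- `u ∇u` at `y`. -/
noncomputable def wf (y : EuclideanSpace ℝ (Fin (m + 1))) : Fin (m + 1) → ℝ :=
  wvec (Q.ψ₁ (rr y)) (zz y) (pp y)

lemma hasDerivAt_uu (y : EuclideanSpace ℝ (Fin (m + 1))) (j : Fin (m + 1)) :
    HasDerivAt (fun t : ℝ => uu Q (y + t • EuclideanSpace.single j (1 : ℝ)))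
      (wf Q y j / uu Q y) 0 := by
  have h := (((hasDerivAt_zz y j).fun_pow 2).fun_add
    (hasDerivAt_comp_rr (Q.hasDerivAt_ψ (rr_nonneg y)) j)).sqrt
    (by simpa using (uu_arg_pos Q y).ne')
  refine h.congr_deriv ?_
  have := (uu_pos Q y).ne'
  simp only [zero_smul, add_zero, wf, wvec, Pi.add_apply, Pi.smul_apply, smul_eq_mul]
  rw [show Real.sqrt (zz y ^ 2 + Q.ψ (rr y)) = uu Q y from rfl]
  field_simp
  simp only [Nat.cast_ofNat]
  ring

lemma hasDerivAt_wf (y : EuclideanSpace ℝ (Fin (m + 1))) (i j : Fin (m + 1)) :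
    HasDerivAt (fun t : ℝ => wf Q (y + t • EuclideanSpace.single i (1 : ℝ)) j)
      (Amat (Q.ψ₁ (rr y)) (Q.ψ₂ (rr y)) (pp y) i j) 0 := by
  have h := ((hasDerivAt_comp_rr (Q.hasDerivAt_ψ₁ (rr_nonneg y)) i).fun_mul
    (hasDerivAt_pp y i j)).fun_add ((hasDerivAt_zz y i).mul_const (ev m j))
  refine HasDerivAt.congr_deriv (f' := _) (by simpa [wf, wvec] using h) ?_
  simp only [Amat, Matrix.add_apply, Matrix.smul_apply, vecMulVec_apply, diagonal_apply,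
    smul_eq_mul]
  rcases eq_or_ne j i with rfl | h'
  · simp; ring
  · simp [h', h'.symm]; ring

/-- The Hessian matrix of the solution at `y`. -/
noncomputable def HH (y : EuclideanSpace ℝ (Fin (m + 1))) :
    Matrix (Fin (m + 1)) (Fin (m + 1)) ℝ :=
  Hmat (uu Q y) (Q.ψ₁ (rr y)) (Q.ψ₂ (rr y)) (zz y) (pp y)

lemma hasDerivAt_grad (y : EuclideanSpace ℝ (Fin (m + 1))) (i j : Fin (m + 1)) :
    HasDerivAt (fun t : ℝ => wf Q (y + t • EuclideanSpace.single i (1 : ℝ)) j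
        / uu Q (y + t • EuclideanSpace.single i (1 : ℝ)))
      (HH Q y i j) 0 := by
  have hu := (uu_pos Q y).ne'
  refine ((hasDerivAt_wf Q y i j).fun_div (hasDerivAt_uu Q y i) (by simpa using hu)).congr_deriv ?_
  simp only [HH, Hmat, Matrix.smul_apply, Matrix.add_apply, vecMulVec_apply, smul_eq_mul,
    zero_smul, add_zero, wf]
  field_simp
  ring

lemma hessian_uu (y : EuclideanSpace ℝ (Fin (m + 1))) : hessian (uu Q) y = HH Q y := by
  ext i j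
  exact hessian_eq_of_partial (contDiff_uu Q) (g := fun j y => wf Q y j / uu Q y)
    (fun y j => hasDerivAt_uu Q y j) (hasDerivAt_grad Q y i j)

lemma lq_eq (y : EuclideanSpace ℝ (Fin (m + 1))) :
    lq (Q.ψ₁ (rr y)) (Q.ψ₂ (rr y)) (pp y)
      = 2 * Q.P (rr y) * Q.ψ (rr y) * (1 + rr y * Q.ξ (rr y) + 2 * rr y * Q.P (rr y)) := by
  simp only [lq, Profile.ψ₁, Profile.ψ₂, rr]; ring

lemma lq_pos (y : EuclideanSpace ℝ (Fin (m + 1))) :
    0 < lq (Q.ψ₁ (rr y)) (Q.ψ₂ (rr y)) (pp y) := by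
  rw [lq_eq]
  have := Q.P_pos _ (rr_nonneg y)
  have := Q.ψ_pos (rr y)
  have := mul_nonneg (rr_nonneg y) (le_of_lt (Q.P_pos _ (rr_nonneg y)))
  have := Q.j_pos _ (rr_nonneg y)
  have : 0 < 1 + rr y * Q.ξ (rr y) + 2 * rr y * Q.P (rr y) := by linarith
  positivity

lemma num_eq (y : EuclideanSpace ℝ (Fin (m + 1))) :
    Q.ψ (rr y) * lq (Q.ψ₁ (rr y)) (Q.ψ₂ (rr y)) (pp y) - (pp y ⬝ᵥ pp y) * Q.ψ₁ (rr y) ^ 2
      = 2 * Q.P (rr y) * Q.ψ (rr y) ^ 2 * (1 + rr y * Q.ξ (rr y)) := by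
  rw [lq_eq, show pp y ⬝ᵥ pp y = rr y from rfl, Profile.ψ₁]; ring

lemma num_pos (y : EuclideanSpace ℝ (Fin (m + 1))) :
    0 < Q.ψ (rr y) * lq (Q.ψ₁ (rr y)) (Q.ψ₂ (rr y)) (pp y)
      - (pp y ⬝ᵥ pp y) * Q.ψ₁ (rr y) ^ 2 := by
  rw [num_eq]
  have := Q.P_pos _ (rr_nonneg y)
  have := Q.j_pos _ (rr_nonneg y)
  have := Q.ψ_pos (rr y)
  positivity

lemma posDef_HH (y : EuclideanSpace ℝ (Fin (m + 1))) : (hessian (uu Q) y).PosDef := by
  rw [hessian_uu]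
  exact posDef_Hmat (diag_pp y) (uu_pos Q y) (uu_sq Q y) (Q.ψ_pos _)
    (Q.ψ₁_pos (rr_nonneg y)) (num_pos Q y)

lemma det_hessian_uu (hm : 1 ≤ m) (y : EuclideanSpace ℝ (Fin (m + 1))) :
    (hessian (uu Q) y).det = Q.D (rr y) / uu Q y ^ (m + 3) := by
  rw [hessian_uu, HH, det_Hmat (diag_pp y) hm (uu_pos Q y).ne' (uu_sq Q y)
    (Q.ψ₁_pos (rr_nonneg y)).ne' (lq_pos Q y).ne', num_eq]
  obtain ⟨k, rfl⟩ : ∃ k, m = k + 1 := ⟨m - 1, by omega⟩
  simp only [Profile.D, Profile.ψ₁, Nat.add_sub_cancel, pow_succ, mul_pow]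
  ring

/-- The function `w = (det D²u) ^ (-(n+1)/(n+2))` in closed form. -/
noncomputable def ww (y : EuclideanSpace ℝ (Fin (m + 1))) : ℝ :=
  Q.F (rr y) * uu Q y ^ (m + 2)

lemma det_rpow_eq (hm : 1 ≤ m) (y : EuclideanSpace ℝ (Fin (m + 1))) :
    (hessian (uu Q) y).det ^ (-((((m + 1 : ℕ) : ℝ) + 1) / (((m + 1 : ℕ) : ℝ) + 2))) = ww Q y := by
  have hu := uu_pos Q y
  have hb : (((m + 1 : ℕ) : ℝ) + 1) / (((m + 1 : ℕ) : ℝ) + 2) = Q.bet := by
    simp only [Profile.bet, Nat.cast_add, Nat.cast_one]; congr 1 <;> ring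
  rw [det_hessian_uu Q hm, hb, Real.div_rpow (Q.D_pos (rr_nonneg y)).le (by positivity), ww,
    Profile.F, div_eq_mul_inv, ← Real.rpow_neg (by positivity), neg_neg, ← Real.rpow_natCast,
    ← Real.rpow_mul hu.le, ← Real.rpow_natCast]
  congr 2
  simp only [Profile.bet, Nat.cast_add, Nat.cast_ofNat]
  field_simp

lemma contDiff_ww : ContDiff ℝ (↑(⊤ : ℕ∞)) (ww Q) := by
  rw [contDiff_iff_contDiffAt]
  intro y
  exact ((Q.contDiffAt_F (rr_nonneg y)).comp y contDiff_rr.contDiffAt).mul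
    ((contDiff_uu Q).contDiffAt.pow _)

lemma hasDerivAt_ww (y : EuclideanSpace ℝ (Fin (m + 1))) (j : Fin (m + 1)) :
    HasDerivAt (fun t : ℝ => ww Q (y + t • EuclideanSpace.single j (1 : ℝ)))
      (Q.F₁ (rr y) * (2 * pp y j) * uu Q y ^ (m + 2)
        + Q.F (rr y) * (((m : ℝ) + 2) * uu Q y ^ (m + 1) * (wf Q y j / uu Q y))) 0 := by
  refine ((hasDerivAt_comp_rr (Q.hasDerivAt_F (rr_nonneg y)) j).fun_mul
    ((hasDerivAt_uu Q y j).fun_pow (m + 2))).congr_deriv ?_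
  simp only [zero_smul, add_zero, Nat.cast_add, Nat.cast_ofNat]
  rw [show m + 2 - 1 = m + 1 from rfl]

lemma hessian_ww (y : EuclideanSpace ℝ (Fin (m + 1))) (F'' : ℝ)
    (hF : HasDerivAt Q.F₁ F'' (rr y)) :
    hessian (ww Q) y
      = (4 * F'' * uu Q y ^ (m + 2)) • vecMulVec (pp y) (pp y)
        + (2 * Q.F₁ (rr y) * uu Q y ^ (m + 2)) • diagonal (pv m)
        + (2 * ((m : ℝ) + 2) * Q.F₁ (rr y) * uu Q y ^ m) • vecMulVec (pp y) (wf Q y)
        + (2 * ((m : ℝ) + 2) * Q.F₁ (rr y) * uu Q y ^ m) • vecMulVec (wf Q y) (pp y)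
        + (((m : ℝ) + 2) * ((m : ℝ) + 1) * Q.F (rr y) * uu Q y ^ m / uu Q y ^ 2)
            • vecMulVec (wf Q y) (wf Q y)
        + (((m : ℝ) + 2) * Q.F (rr y) * uu Q y ^ (m + 1)) • HH Q y := by
  ext i j
  have hu := (uu_pos Q y).ne'
  have h := ((((hasDerivAt_comp_rr hF i).fun_mul ((hasDerivAt_pp y i j).const_mul 2)).fun_mul
    ((hasDerivAt_uu Q y i).fun_pow (m + 2)))).fun_add
    ((hasDerivAt_comp_rr (Q.hasDerivAt_F (rr_nonneg y)) i).fun_mul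
      ((((hasDerivAt_uu Q y i).fun_pow (m + 1)).const_mul ((m : ℝ) + 2)).fun_mul
        (hasDerivAt_grad Q y i j)))
  refine (hessian_eq_of_partial (contDiff_ww Q)
    (g := fun j y => Q.F₁ (rr y) * (2 * pp y j) * uu Q y ^ (m + 2)
        + Q.F (rr y) * (((m : ℝ) + 2) * uu Q y ^ (m + 1) * (wf Q y j / uu Q y)))
    (fun y j => hasDerivAt_ww Q y j) h).trans ?_
  simp only [Matrix.add_apply, Matrix.smul_apply, vecMulVec_apply, diagonal_apply, smul_eq_mul,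
    zero_smul, add_zero, Nat.cast_add, Nat.cast_ofNat, Nat.cast_one]
  rw [show m + 2 - 1 = m + 1 from rfl, show m + 1 - 1 = m from rfl]
  rcases eq_or_ne j i with rfl | h'
  · simp only [if_true]; field_simp; ring
  · simp only [if_neg h', if_neg h'.symm]; field_simp; ring

lemma equation_uu (hm : 1 ≤ m) (x : EuclideanSpace ℝ (Fin (m + 1))) :
    ∑ i, ∑ j, ((hessian (uu Q) x).det * (hessian (uu Q) x)⁻¹ i j)
      * hessian (fun y => (hessian (uu Q) y).det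
          ^ (-((((m + 1 : ℕ) : ℝ) + 1) / (((m + 1 : ℕ) : ℝ) + 2)))) x i j = 0 := by
  rw [show (fun y => (hessian (uu Q) y).det
      ^ (-((((m + 1 : ℕ) : ℝ) + 1) / (((m + 1 : ℕ) : ℝ) + 2)))) = ww Q from
    funext (det_rpow_eq Q hm)]
  obtain ⟨F'', hF, hEq⟩ := Q.hasDerivAt_F₁ (rr_nonneg x)
  have hu := (uu_pos Q x).ne'
  have hu2 := uu_sq Q x
  have hψ₁ := (Q.ψ₁_pos (rr_nonneg x)).ne'
  have hL := (lq_pos Q x).ne'
  have hN := (num_pos Q x).ne'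
  have hE : eq' (Q.ψ (rr x)) (Q.ψ₁ (rr x)) (Q.ψ₂ (rr x)) (pp x) ≠ 0 :=
    div_ne_zero hN hL
  have hHM := H_mul_M (diag_pp x) hu hu2 hψ₁ hL hE
  have hsym : (HH Q x)ᵀ = HH Q x := by
    simp [HH, Hmat, Amat_transpose, transpose_vecMulVec]
  have hinv : (hessian (uu Q) x)⁻¹
      = Mmat (uu Q x) (Q.ψ (rr x)) (Q.ψ₁ (rr x)) (Q.ψ₂ (rr x)) (zz x) (pp x) := by
    rw [hessian_uu]; exact Matrix.inv_eq_right_inv hHM
  obtain ⟨dpp, dpw, dwp, dww⟩ := dots_M (diag_pp x) hu2 hψ₁ hL hE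
  have key : pairing ((hessian (uu Q) x)⁻¹) (hessian (ww Q) x) = 0 := by
    rw [hinv, hessian_ww Q x F'' hF]
    simp only [pairing_add, pairing_smul, pairing_vecMulVec, wf, dpp, dpw, dwp, dww,
      pairing_M_pv (diag_pp x), pairing_comm_inv (H := HH Q x) hsym hHM]
    have hN' := num_eq Q x
    have hLval : lq (Q.ψ₁ (rr x)) (Q.ψ₂ (rr x)) (pp x)
        = Q.ψ₁ (rr x) + 2 * rr x * Q.ψ₂ (rr x) := rfl
    simp only [eq', show pp x ⬝ᵥ pp x = rr x from rfl] at hN hN' ⊢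
    set L := lq (Q.ψ₁ (rr x)) (Q.ψ₂ (rr x)) (pp x) with hLdef
    set ρ := rr x
    set u := uu Q x
    set N₀ := Q.ψ ρ * L - ρ * Q.ψ₁ ρ ^ 2 with hN0
    set j := 1 + ρ * Q.ξ ρ with hj
    have hNj : N₀ = j * Q.ψ ρ * Q.ψ₁ ρ := by rw [hN', Profile.ψ₁]; ring
    rw [hNj] at hN ⊢
    rw [← hLval] at hEq
    have hj0 : j ≠ 0 := (Q.j_pos _ (rr_nonneg x)).ne'
    have hψ0 : Q.ψ ρ ≠ 0 := (Q.ψ_pos ρ).ne'
    rw [show u ^ (m + 2) = u ^ m * u ^ 2 by ring, show u ^ (m + 1) = u ^ m * u by ring]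
    field_simp
    linear_combination (u ^ m * u ^ 3 * L) * hEq + (-2 * u ^ m * u ^ 3 * Q.F₁ ρ) * (hN0.symm.trans hNj)
      + (2 * u ^ m * u ^ 3 * Q.F₁ ρ * Q.ψ ρ * (1 + ρ * Q.ξ ρ)) * hLval
  rw [← mul_zero (hessian (uu Q) x).det, ← key, pairing, Finset.mul_sum]
  refine Finset.sum_congr rfl fun i _ => ?_
  rw [Finset.mul_sum]
  exact Finset.sum_congr rfl fun j _ => mul_assoc _ _ _

lemma not_quadratic :
    ¬ ∃ (A : Fin (m + 1) → Fin (m + 1) → ℝ) (b : Fin (m + 1) → ℝ) (c : ℝ),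
      ∀ x : EuclideanSpace ℝ (Fin (m + 1)),
        uu Q x = (∑ i, ∑ j, A i j * x i * x j) + (∑ i, b i * x i) + c := by
  rintro ⟨A, b, c, h⟩
  have e : ∀ t : ℝ, Real.sqrt (t ^ 2 + Q.ψ 0)
      = A (Fin.last m) (Fin.last m) * t * t + b (Fin.last m) * t + c := by
    intro t
    have := h (t • EuclideanSpace.single (Fin.last m) (1 : ℝ))
    simpa [uu, zz, rr, pp, dotProduct, pv, Finset.sum_ite_eq', mul_ite, ite_mul] using this
  set a := A (Fin.last m) (Fin.last m)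
  set w := Q.ψ 0
  have hw : 0 < w := Q.ψ_pos 0
  have key : ∀ t : ℝ, (a * t * t + c) ^ 2 = t ^ 2 + w := by
    intro t
    have hp := e t
    have hn := e (-t)
    rw [neg_sq] at hn
    have hb : b (Fin.last m) * t = 0 := by linarith
    rw [← Real.sq_sqrt (show 0 ≤ t ^ 2 + w by positivity), hp, hb]; ring
  nlinarith [key 0, key 1, key 2, key 3]

end Vale.Agent.P252
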